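import Vale.Agent.P127.TV.SubC

/-!
# P127 / TV : approximate translation invariance of a law

`Tr P A u c ε`: the law of the real vector `A` under `P` is invariant under the translation by `u`
up to a rounding `c i` in the coordinate `i`, in the sense of sub-couplings of mass `1 - ε`.
-/

namespace Vale.Agent.P127.TV

open Finset Vale.Agent.P127 Vale.Agent.P127.Stk Vale.Agent.P127.U.Pin

variable {Ω : Type} [Fintype Ω] {ι : Type*} {S T U V : Type*}

/-- approximate invariance of the law of `A` under the translation by `u` -/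
def Tr (P : Law Ω) (A : Ω → ι → ℝ) (u c : ι → ℝ) (ε : ℝ) : Prop :=
  SubC P P (fun a b => ∀ i, |A b i - A a i - u i| ≤ c i) ε

theorem Tr.mono {P : Law Ω} {A : Ω → ι → ℝ} {u c c' : ι → ℝ} {ε ε' : ℝ} (h : Tr P A u c ε)
    (hc : ∀ i, c i ≤ c' i) (hε : ε ≤ ε') : Tr P A u c' ε' :=
  SubC.mono h (fun _ _ h i => (h i).trans (hc i)) hε

theorem Tr.congr {P : Law Ω} {A : Ω → ι → ℝ} {u u' c : ι → ℝ} {ε : ℝ} (h : Tr P A u c ε)
    (hu : ∀ i, u i = u' i) : Tr P A u' c ε :=
  SubC.mono h (fun _ _ h i => by rw [← hu i]; exact h i) le_rfl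

theorem Tr.zero (P : Law Ω) (A : Ω → ι → ℝ) : Tr P A (fun _ => 0) (fun _ => 0) 0 :=
  (SubC.refl P).mono (fun a b e i => by rw [e]; simp) le_rfl

theorem Tr.neg {P : Law Ω} {A : Ω → ι → ℝ} {u c : ι → ℝ} {ε : ℝ} (h : Tr P A u c ε) :
    Tr P A (fun i => - u i) c ε := by
  refine (SubC.symm h).mono (fun a b h i => ?_) le_rfl
  have := h i
  rw [← abs_neg]
  convert this using 2
  ring

theorem Tr.add {P : Law Ω} {A : Ω → ι → ℝ} {u u' c c' : ι → ℝ} {ε ε' : ℝ} (h : Tr P A u c ε)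
    (h' : Tr P A u' c' ε') :
    Tr P A (fun i => u i + u' i) (fun i => c i + c' i) (ε + ε') := by
  refine (SubC.comp h h').mono ?_ le_rfl
  rintro a b ⟨m, h1, h2⟩ i
  have e1 := h1 i
  have e2 := h2 i
  have : A b i - A a i - (u i + u' i) = (A m i - A a i - u i) + (A b i - A m i - u' i) := by ring
  rw [this]
  exact (abs_add_le _ _).trans (add_le_add e1 e2)

theorem Tr.nsmul {P : Law Ω} {A : Ω → ι → ℝ} {u c : ι → ℝ} {ε : ℝ} (h : Tr P A u c ε) (k : ℕ) :
    Tr P A (fun i => k * u i) (fun i => k * c i) (k * ε) := by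
  induction k with
  | zero =>
    refine (Tr.zero P A).congr (fun i => by simp) |>.mono (fun i => by simp) (by simp)
  | succ n ih =>
    refine ((ih.add h).congr (u' := fun i => ((n + 1 : ℕ) : ℝ) * u i) fun i => ?_).mono
      (fun i => ?_) ?_
    · push_cast; ring
    · push_cast; linarith
    · push_cast; linarith

theorem Tr.zsmul {P : Law Ω} {A : Ω → ι → ℝ} {u c : ι → ℝ} {ε : ℝ} (h : Tr P A u c ε) (k : ℤ) :
    Tr P A (fun i => k * u i) (fun i => |(k : ℝ)| * c i) (|(k : ℝ)| * ε) := by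
  rcases le_total 0 k with hk | hk
  · obtain ⟨n, rfl⟩ := Int.eq_ofNat_of_zero_le hk
    have := h.nsmul n
    simpa using this
  · obtain ⟨n, hn⟩ := Int.eq_ofNat_of_zero_le (neg_nonneg.2 hk)
    have hk' : k = -(n : ℤ) := by
      have : -k = (n : ℤ) := by simpa using hn
      omega
    subst hk'
    have h1 := (h.nsmul n).neg
    refine (h1.congr (u' := fun i => ((-(n : ℤ) : ℤ) : ℝ) * u i) fun i => by
      push_cast; ring).mono (fun i => ?_) ?_
    · push_cast
      rw [abs_neg, Nat.abs_cast]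
    · push_cast
      rw [abs_neg, Nat.abs_cast]

/-- two independences with rounding, for a vector -/
theorem Tr.two_ind (P : Law Ω) (E : Ω → S) (A B : Ω → ι → ℝ) (f : S → ι → ℝ) (c : ι → ℝ)
    (h : ∀ ω, 0 < P.w ω → ∀ i, |B ω i - A ω i - f (E ω) i| ≤ c i) {e e' : S}
    (he : 0 < P.pr E e) (he' : 0 < P.pr E e') :
    Tr P A (fun i => f e i - f e' i) (fun i => 2 * c i)
      ((dl (P.cond E e) A P A + dl (P.cond E e) B (P.cond E e') B +
        dl (P.cond E e') A P A) / 2) := by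
  refine (SubC.two_ind P E A B he he').mono ?_ le_rfl
  rintro a b ⟨x, y, hx, hy, ex, ey, h1, h2, h3⟩ i
  have k1 := h x hx i
  have k2 := h y hy i
  rw [ex] at k1
  rw [ey] at k2
  have : A b i - A a i - (f e i - f e' i) =
      (B x i - A x i - f e i) - (B y i - A y i - f e' i) := by
    rw [h1, ← h3, h2]
    ring
  rw [this]
  refine (abs_sub _ _).trans ?_
  linarith

/-- mixing over the past -/
theorem Tr.mix (P : Law Ω) (D : Ω → U) (A : Ω → ι → ℝ) (u : U → ι → ℝ) (c : U → ι → ℝ)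
    (ε : U → ℝ)
    (h : ∀ ω, 0 < P.w ω → Tr (P.cond D (D ω)) A (u (D ω)) (c (D ω)) (ε (D ω))) :
    SubC P P (fun a b => D a = D b ∧ ∀ i, |A b i - A a i - u (D a) i| ≤ c (D a) i)
      (P.ex (fun ω => ε (D ω))) :=
  SubC.mix P D (fun d a b => ∀ i, |A b i - A a i - u d i| ≤ c d i) ε h

/-! ### counting lemmas -/

/-- integers in an interval -/
lemma card_Icc_le {x l : ℝ} {N : ℕ} (hN : l + 1 ≤ N) (t : Finset ℤ)
    (ht : ∀ k ∈ t, x ≤ (k : ℝ) ∧ (k : ℝ) ≤ x + l) : t.card ≤ N := by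
  have h1 : t ⊆ Finset.Icc ⌈x⌉ ⌊x + l⌋ := by
    intro k hk
    obtain ⟨h1, h2⟩ := ht k hk
    exact Finset.mem_Icc.2 ⟨Int.ceil_le.2 h1, Int.le_floor.2 h2⟩
  refine (Finset.card_le_card h1).trans ?_
  rw [Int.card_Icc]
  have h2 : ((⌊x + l⌋ + 1 - ⌈x⌉ : ℤ) : ℝ) ≤ N := by
    push_cast
    have h3 := Int.floor_le (x + l)
    have h4 := Int.le_ceil x
    linarith
  have h3 : ⌊x + l⌋ + 1 - ⌈x⌉ ≤ (N : ℤ) := by exact_mod_cast h2
  omega

/-- the set of the indices `k < n` with `x + k * u` in a short interval -/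
lemma card_idx_le {n : ℕ} {u ρ x : ℝ} {N : ℕ} (hu : 0 < |u|) (hN : ρ / |u| + 1 ≤ N) :
    ∃ t : Finset (Fin n), t.card ≤ N ∧
      ∀ k : Fin n, x ≤ (k : ℝ) * u → (k : ℝ) * u ≤ x + ρ → k ∈ t := by
  classical
  refine ⟨univ.filter (fun k : Fin n => x ≤ (k : ℝ) * u ∧ (k : ℝ) * u ≤ x + ρ), ?_,
    fun k h1 h2 => by simp [h1, h2]⟩
  set t := univ.filter (fun k : Fin n => x ≤ (k : ℝ) * u ∧ (k : ℝ) * u ≤ x + ρ) with ht
  have hinj : Set.InjOn (fun k : Fin n => ((k : ℕ) : ℤ)) (t : Set (Fin n)) := by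
    intro a _ b _ h
    dsimp only at h
    have : (a : ℕ) = (b : ℕ) := by exact_mod_cast h
    exact Fin.ext this
  rw [← Finset.card_image_of_injOn hinj]
  rcases lt_or_gt_of_ne (abs_pos.1 hu) with h0 | h0
  · rw [abs_of_neg h0] at hN
    refine card_Icc_le (x := (x + ρ) / u) (l := ρ / -u) hN _ fun k hk => ?_
    obtain ⟨k', hk', rfl⟩ := Finset.mem_image.1 hk
    rw [ht, Finset.mem_filter] at hk'
    obtain ⟨_, h1, h2⟩ := hk'
    push_cast
    constructor
    · rw [div_le_iff_of_neg h0]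
      exact h2
    · have : (x + ρ) / u + ρ / -u = x / u := by
        field_simp
        ring
      rw [this, le_div_iff_of_neg h0]
      exact h1
  · rw [abs_of_pos h0] at hN
    refine card_Icc_le (x := x / u) (l := ρ / u) hN _ fun k hk => ?_
    obtain ⟨k', hk', rfl⟩ := Finset.mem_image.1 hk
    rw [ht, Finset.mem_filter] at hk'
    obtain ⟨_, h1, h2⟩ := hk'
    push_cast
    constructor
    · rw [div_le_iff₀ h0]
      exact h1
    · have : x / u + ρ / u = (x + ρ) / u := by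
        field_simp
      rw [this, le_div_iff₀ h0]
      exact h2

theorem SubC.eps_nonneg {Ω₁ Ω₂ : Type} [Fintype Ω₁] [Fintype Ω₂] {P : Law Ω₁} {Q : Law Ω₂}
    {R : Ω₁ → Ω₂ → Prop} {ε : ℝ} (h : SubC P Q R ε) : 0 ≤ ε := by
  obtain ⟨q, h0, h1, h2, h3, h4⟩ := h
  have := Finset.sum_le_sum fun a (_ : a ∈ (univ : Finset Ω₁)) => h1 a
  rw [P.sum_one] at this
  linarith

/-- the iterates of an approximate translation, preserving the past -/
theorem iter_tr (P : Law Ω) (D : Ω → U) (A : Ω → ι → ℝ) (u c : U → ι → ℝ) {ε : ℝ}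
    (h : SubC P P (fun a b => D a = D b ∧ ∀ i, |A b i - A a i - u (D a) i| ≤ c (D a) i) ε)
    (n : ℕ) :
    SubC P P (fun a b => D a = D b ∧ ∀ i, |A b i - A a i - n * u (D a) i| ≤ n * c (D a) i)
      (n * ε) := by
  refine SubC.iter h (fun k a b => D a = D b ∧
    ∀ i, |A b i - A a i - k * u (D a) i| ≤ k * c (D a) i) (fun a => ⟨rfl, fun i => by simp⟩)
    ?_ n
  rintro k x y z ⟨e1, h1⟩ ⟨e2, h2⟩
  refine ⟨e1.trans e2, fun i => ?_⟩
  have k1 := h1 i
  have k2 := h2 i
  rw [← e1] at k2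
  have e : A z i - A x i - ((k + 1 : ℕ) : ℝ) * u (D x) i =
      (A y i - A x i - k * u (D x) i) + (A z i - A y i - u (D x) i) := by
    push_cast; ring
  rw [e]
  refine (abs_add_le _ _).trans ?_
  push_cast
  linarith

/-- **one coordinate**: near-invariance under a translation of size `≥ r` gives the digits between
the sizes `R` and `r` -/
theorem digits_one (P : Law Ω) (D : Ω → U) (a : Ω → ℝ) (u c : U → ℝ) {ε : ℝ} {r R : ℝ}
    (hr : 0 < r) (n : ℕ) (hn : 0 < n)
    (h : SubC P P (fun x y => D x = D y ∧ |a y - a x - u (D x)| ≤ c (D x)) ε)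
    (hu : ∀ ω, 0 < P.w ω → r ≤ |u (D ω)|) (hc0 : ∀ ω, 0 < P.w ω → n * c (D ω) ≤ r)
    (hR : ∀ ω, 0 < P.w ω → n * |u (D ω)| ≤ R) :
    (1 - n * ε) * Real.log n - n * ε - Real.log 4 - Real.log 5 ≤
      hc P (fun ω => ⌊a ω / r⌋) (fun ω => (⌊a ω / R⌋, D ω)) := by
  classical
  have hε := SubC.eps_nonneg h
  have : Nonempty (Fin n) := ⟨⟨0, hn⟩⟩
  have hit : ∀ k : Fin n, SubC P P (fun x y => D x = D y ∧
      |a y - a x - (k : ℕ) * u (D x)| ≤ (k : ℕ) * c (D x)) (n * ε) := by
    intro k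
    have h' : SubC P P (fun x y => D x = D y ∧ ∀ i : Unit,
        |(fun ω (_ : Unit) => a ω) y i - (fun ω (_ : Unit) => a ω) x i -
          (fun d (_ : Unit) => u d) (D x) i| ≤ (fun d (_ : Unit) => c d) (D x) i) ε :=
      h.mono (fun x y hxy => ⟨hxy.1, fun _ => hxy.2⟩) le_rfl
    refine (iter_tr P D (fun ω (_ : Unit) => a ω) (fun d (_ : Unit) => u d)
      (fun d (_ : Unit) => c d) h' (k : ℕ)).mono (fun x y hxy => ⟨hxy.1, hxy.2 ()⟩) ?_
    have : ((k : ℕ) : ℝ) ≤ n := by exact_mod_cast k.2.le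
    exact mul_le_mul_of_nonneg_right this hε
  have hsp := spread P (K := Fin n) _ (fun _ => n * ε) hit (fun ω => ⌊a ω / r⌋)
    (fun ω => (⌊a ω / R⌋, D ω)) 4 5 ?_ ?_
  · have hn' : (0 : ℝ) < n := by exact_mod_cast hn
    have e1 : (∑ _k : Fin n, (n : ℝ) * ε) / (Fintype.card (Fin n) : ℝ) = n * ε := by
      rw [Finset.sum_const, Finset.card_univ, Fintype.card_fin, nsmul_eq_mul,
        mul_div_cancel_left₀ _ hn'.ne']
    rw [e1, Fintype.card_fin] at hsp
    exact_mod_cast hsp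
  · intro x y hx hy
    have hux := hu x hx
    have hu0 : 0 < |u (D x)| := hr.trans_le hux
    obtain ⟨t, ht1, ht2⟩ := card_idx_le (n := n) (u := u (D x)) (ρ := 3 * r)
      (x := ⌊a y / r⌋ * r - a x - r) (N := 4) hu0 (by
        push_cast
        have : 3 * r / |u (D x)| ≤ 3 := by
          rw [div_le_iff₀ hu0]; linarith
        linarith)
    refine ⟨t, ht1, fun k y' hy' hR' hf => ht2 k ?_ ?_⟩
    · have h1 := (abs_le.1 hR'.2).2
      have h2 : (k : ℕ) * c (D x) ≤ r := by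
        rcases le_total (c (D x)) 0 with hc' | hc'
        · have : ((k : ℕ) : ℝ) * c (D x) ≤ 0 :=
            mul_nonpos_of_nonneg_of_nonpos (Nat.cast_nonneg _) hc'
          linarith
        · have hk : ((k : ℕ) : ℝ) ≤ n := by exact_mod_cast k.2.le
          exact (mul_le_mul_of_nonneg_right hk hc').trans (hc0 x hx)
      have h3 : (⌊a y / r⌋ : ℝ) * r ≤ a y' := by
        rw [← hf]
        have := Int.floor_le (a y' / r)
        rwa [le_div_iff₀ hr] at this
      linarith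
    · have h1 := (abs_le.1 hR'.2).1
      have h2 : (k : ℕ) * c (D x) ≤ r := by
        rcases le_total (c (D x)) 0 with hc' | hc'
        · have : ((k : ℕ) : ℝ) * c (D x) ≤ 0 :=
            mul_nonpos_of_nonneg_of_nonpos (Nat.cast_nonneg _) hc'
          linarith
        · have hk : ((k : ℕ) : ℝ) ≤ n := by exact_mod_cast k.2.le
          exact (mul_le_mul_of_nonneg_right hk hc').trans (hc0 x hx)
      have h3 : a y' < (⌊a y / r⌋ : ℝ) * r + r := by
        rw [← hf]
        have := Int.lt_floor_add_one (a y' / r)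
        rw [div_lt_iff₀ hr] at this
        linarith
      linarith
  · intro x hx
    have hux := hu x hx
    have hRx := hR x hx
    have hu0 : 0 < |u (D x)| := hr.trans_le hux
    have hn1 : (1 : ℝ) ≤ n := by exact_mod_cast hn
    have hRpos : 0 < R := lt_of_lt_of_le (mul_pos (by linarith) hu0) hRx
    have hrR : r ≤ R := by nlinarith
    refine ⟨(Finset.Icc (⌊a x / R⌋ - 2) (⌊a x / R⌋ + 2)).image (fun z => (z, D x)), ?_, ?_⟩
    · refine Finset.card_image_le.trans ?_
      rw [Int.card_Icc]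
      omega
    · rintro k y hy ⟨e, hR'⟩
      rw [Finset.mem_image]
      refine ⟨⌊a y / R⌋, ?_, by rw [e]⟩
      have hk : ((k : ℕ) : ℝ) ≤ n := by exact_mod_cast k.2.le
      have hk0 : (0 : ℝ) ≤ ((k : ℕ) : ℝ) := Nat.cast_nonneg _
      have h2 : (k : ℕ) * c (D x) ≤ r := by
        rcases le_total (c (D x)) 0 with hc' | hc'
        · have : ((k : ℕ) : ℝ) * c (D x) ≤ 0 :=
            mul_nonpos_of_nonneg_of_nonpos (Nat.cast_nonneg _) hc'
          linarith
        · exact (mul_le_mul_of_nonneg_right hk hc').trans (hc0 x hx)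
      have h3 : |((k : ℕ) : ℝ) * u (D x)| ≤ R := by
        rw [abs_mul, Nat.abs_cast]
        exact (mul_le_mul_of_nonneg_right hk (abs_nonneg _)).trans hRx
      have h4 := abs_le.1 h3
      have h5 := abs_le.1 hR'
      have h6 : a y / R ≤ a x / R + 2 := by
        rw [div_add' _ _ _ hRpos.ne', div_le_div_iff_of_pos_right hRpos]
        linarith
      have h7 : a x / R - 2 ≤ a y / R := by
        rw [div_sub' hRpos.ne', div_le_div_iff_of_pos_right hRpos]
        linarith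
      rw [Finset.mem_Icc]
      constructor
      · have := Int.floor_mono h7
        rwa [show a x / R - 2 = a x / R - ((2 : ℤ) : ℝ) by push_cast; ring,
          Int.floor_sub_intCast] at this
      · have := Int.floor_mono h6
        rwa [show a x / R + 2 = a x / R + ((2 : ℤ) : ℝ) by push_cast; ring,
          Int.floor_add_intCast] at this

end Vale.Agent.P127.TV
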