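import Vale.Agent.P127.Stk.LibEnt

/-!
# P127 / TV : continuity of conditional entropy in total variation (Fannes)

* `fannes_fin`: finite sums.
* `fannes`: two pairs of variables on two finite laws.
-/

namespace Vale.Agent.P127.TV

open Finset Vale.Agent.P127 Vale.Agent.P127.Stk

section fin

variable {ι β : Type*} (s : Finset ι) (g : ι → β)

open Classical in
/-- fibre sums -/
noncomputable def fib (u : ι → ℝ) (i : ι) : ℝ := ∑ j ∈ s with g j = g i, u j

/-- unnormalised conditional entropy -/
noncomputable def En (u : ι → ℝ) : ℝ := ∑ i ∈ s, u i * (Real.log (fib s g u i) - Real.log (u i))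

variable {s g}

lemma le_fib {u : ι → ℝ} (hu : ∀ i ∈ s, 0 ≤ u i) {i : ι} (hi : i ∈ s) : u i ≤ fib s g u i := by
  classical
  unfold fib
  refine Finset.single_le_sum (f := u) (fun j hj => hu j (Finset.mem_filter.1 hj).1) ?_
  simp [hi]

lemma fib_add (u v : ι → ℝ) (i : ι) :
    fib s g (fun j => u j + v j) i = fib s g u i + fib s g v i := by
  unfold fib
  rw [Finset.sum_add_distrib]

lemma fib_nonneg {u : ι → ℝ} (hu : ∀ i ∈ s, 0 ≤ u i) (i : ι) : 0 ≤ fib s g u i := by
  classical
  exact Finset.sum_nonneg fun j hj => hu j (Finset.mem_filter.1 hj).1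

open Classical in
/-- summing over the fibres -/
lemma sum_fib (u : ι → ℝ) (φ : β → ℝ) :
    ∑ i ∈ s, u i * φ (g i) = ∑ b ∈ s.image g, (∑ i ∈ s with g i = b, u i) * φ b := by
  classical
  rw [← Finset.sum_fiberwise_of_maps_to (g := g) (t := s.image g)
    (fun i hi => Finset.mem_image_of_mem g hi)]
  refine Finset.sum_congr rfl fun b _ => ?_
  rw [Finset.sum_mul]
  refine Finset.sum_congr rfl fun i hi => ?_
  rw [(Finset.mem_filter.1 hi).2]

lemma log_le_div {x y : ℝ} (hx : 0 < x) (hy : 0 < y) :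
    x * (Real.log y - Real.log x) ≤ y - x := by
  rw [← Real.log_div hy.ne' hx.ne']
  have := Real.log_le_sub_one_of_pos (div_pos hy hx)
  have h2 := mul_le_mul_of_nonneg_left this hx.le
  rw [mul_sub, mul_div_cancel₀ _ hx.ne'] at h2
  linarith

/-- termwise superadditivity -/
lemma superadd {x1 x2 y1 y2 : ℝ} (hx1 : 0 ≤ x1) (hx2 : 0 ≤ x2) (h1 : x1 ≤ y1) (h2 : x2 ≤ y2) :
    x1 * (Real.log y1 - Real.log x1) + x2 * (Real.log y2 - Real.log x2) ≤
      (x1 + x2) * (Real.log (y1 + y2) - Real.log (x1 + x2)) := by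
  rcases hx1.eq_or_lt with h10 | h10
  · rcases hx2.eq_or_lt with h20 | h20
    · rw [← h10, ← h20]; simp
    · rw [← h10]
      simp only [zero_mul, zero_add]
      have : Real.log y2 ≤ Real.log (y1 + y2) :=
        Real.log_le_log (by linarith) (by linarith)
      have := mul_le_mul_of_nonneg_left this h20.le
      linarith
  · rcases hx2.eq_or_lt with h20 | h20
    · rw [← h20]
      simp only [zero_mul, add_zero]
      have : Real.log y1 ≤ Real.log (y1 + y2) :=
        Real.log_le_log (by linarith) (by linarith)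
      have := mul_le_mul_of_nonneg_left this h10.le
      linarith
    · have hy1 : 0 < y1 := by linarith
      have hy2 : 0 < y2 := by linarith
      have hx : 0 < x1 + x2 := by linarith
      have hy : 0 < y1 + y2 := by linarith
      set r : ℝ := (x1 + x2) / (y1 + y2) with hr
      have hr0 : 0 < r := div_pos hx hy
      have e1 := log_le_div h10 (mul_pos hy1 hr0)
      have e2 := log_le_div h20 (mul_pos hy2 hr0)
      have hlr : Real.log r = Real.log (x1 + x2) - Real.log (y1 + y2) := by
        rw [hr, Real.log_div hx.ne' hy.ne']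
      rw [Real.log_mul hy1.ne' hr0.ne', hlr] at e1
      rw [Real.log_mul hy2.ne' hr0.ne', hlr] at e2
      have e3 : y1 * r + y2 * r = x1 + x2 := by
        rw [hr]; field_simp
      nlinarith

/-- binary entropy bound -/
lemma bin_le {x y : ℝ} (hx : 0 ≤ x) (hy : 0 ≤ y) :
    x * (Real.log (x + y) - Real.log x) + y * (Real.log (x + y) - Real.log y) ≤
      (x + y) * Real.log 2 := by
  rcases hx.eq_or_lt with h10 | h10
  · rw [← h10]
    simp only [zero_mul, zero_add, sub_self, mul_zero]
    exact mul_nonneg hy (Real.log_nonneg (by norm_num))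
  · rcases hy.eq_or_lt with h20 | h20
    · rw [← h20]
      simp only [zero_mul, add_zero, sub_self, mul_zero]
      exact mul_nonneg hx (Real.log_nonneg (by norm_num))
    · have h12 : 0 < x + y := by linarith
      have e1 := log_le_div h10 (show (0 : ℝ) < (x + y) / 2 by positivity)
      have e2 := log_le_div h20 (show (0 : ℝ) < (x + y) / 2 by positivity)
      rw [Real.log_div h12.ne' (by norm_num)] at e1 e2
      nlinarith

theorem En_mono {u m r : ι → ℝ} (hm : ∀ i ∈ s, 0 ≤ m i) (hr : ∀ i ∈ s, 0 ≤ r i)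
    (hu : ∀ i, u i = m i + r i) : En s g m ≤ En s g u := by
  have hu' : u = fun i => m i + r i := funext hu
  subst hu'
  unfold En
  refine Finset.sum_le_sum fun i hi => ?_
  have h := superadd (hm i hi) (hr i hi) (le_fib (g := g) hm hi) (le_fib (g := g) hr hi)
  rw [fib_add]
  have h2 : 0 ≤ r i * (Real.log (fib s g r i) - Real.log (r i)) := by
    rcases (hr i hi).eq_or_lt with h0 | h0
    · rw [← h0]; simp
    · have := Real.log_le_log h0 (le_fib (g := g) hr hi)
      exact mul_nonneg h0.le (by linarith)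
  linarith

theorem En_split {u m r : ι → ℝ} (hm : ∀ i ∈ s, 0 ≤ m i) (hr : ∀ i ∈ s, 0 ≤ r i)
    (hu : ∀ i, u i = m i + r i) :
    En s g u ≤ En s g m + En s g r + (∑ i ∈ s, u i) * Real.log 2 := by
  classical
  have hu' : u = fun i => m i + r i := funext hu
  subst hu'
  have h1 : En s g (fun i => m i + r i) ≤ En s g m + En s g r +
      ∑ i ∈ s, (m i * (Real.log (fib s g (fun i => m i + r i) i) - Real.log (fib s g m i)) +
        r i * (Real.log (fib s g (fun i => m i + r i) i) - Real.log (fib s g r i))) := by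
    unfold En
    rw [← Finset.sum_add_distrib, ← Finset.sum_add_distrib]
    refine Finset.sum_le_sum fun i hi => ?_
    have hmi := hm i hi
    have hri := hr i hi
    have k1 : m i * Real.log (m i) ≤ m i * Real.log (m i + r i) := by
      rcases hmi.eq_or_lt with h0 | h0
      · rw [← h0]; simp
      · exact mul_le_mul_of_nonneg_left (Real.log_le_log h0 (by linarith)) hmi
    have k2 : r i * Real.log (r i) ≤ r i * Real.log (m i + r i) := by
      rcases hri.eq_or_lt with h0 | h0
      · rw [← h0]; simp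
      · exact mul_le_mul_of_nonneg_left (Real.log_le_log h0 (by linarith)) hri
    nlinarith
  refine h1.trans ?_
  gcongr
  rw [Finset.sum_add_distrib]
  have hfib : ∀ (v : ι → ℝ) (i : ι), fib s g v i =
      (fun b => ∑ j ∈ s with g j = b, v j) (g i) := fun v i => by
    unfold fib
    exact Finset.sum_congr (by congr) fun _ _ => rfl
  simp only [hfib]
  rw [sum_fib (s := s) (g := g) m (fun b => Real.log (∑ j ∈ s with g j = b, (m j + r j)) -
      Real.log (∑ j ∈ s with g j = b, m j)),
    sum_fib (s := s) (g := g) r (fun b => Real.log (∑ j ∈ s with g j = b, (m j + r j)) -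
      Real.log (∑ j ∈ s with g j = b, r j)), ← Finset.sum_add_distrib]
  have h3 : (∑ i ∈ s, (m i + r i)) * Real.log 2 = ∑ b ∈ s.image g,
      (∑ i ∈ s with g i = b, (m i + r i)) * Real.log 2 := by
    have := sum_fib (s := s) (g := g) (fun i => m i + r i) (fun _ => Real.log 2)
    rw [← this, Finset.sum_mul]
  rw [h3]
  refine Finset.sum_le_sum fun b _ => ?_
  have e : ∑ i ∈ s with g i = b, (m i + r i) =
      ∑ i ∈ s with g i = b, m i + ∑ i ∈ s with g i = b, r i := Finset.sum_add_distrib
  rw [e]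
  exact bin_le (Finset.sum_nonneg fun i hi => hm i (Finset.mem_filter.1 hi).1)
    (Finset.sum_nonneg fun i hi => hr i (Finset.mem_filter.1 hi).1)

theorem En_card {u : ι → ℝ} (hu : ∀ i ∈ s, 0 ≤ u i) (N : ℕ)
    (hN : ∀ b, ∀ t : Finset ι, (∀ i ∈ t, i ∈ s ∧ g i = b ∧ 0 < u i) → t.card ≤ N) :
    En s g u ≤ (∑ i ∈ s, u i) * Real.log N := by
  classical
  by_cases hz : ∃ i ∈ s, 0 < u i
  swap
  · push Not at hz
    have hz' : ∀ i ∈ s, u i = 0 := fun i hi => le_antisymm (hz i hi) (hu i hi)
    have h1 : En s g u = 0 := Finset.sum_eq_zero fun i hi => by rw [hz' i hi, zero_mul]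
    have h2 : ∑ i ∈ s, u i = 0 := Finset.sum_eq_zero hz'
    rw [h1, h2, zero_mul]
  obtain ⟨i0, hi0, hui0⟩ := hz
  have hN0 : 0 < N := by
    have := hN (g i0) {i0} (by simp [hi0, hui0])
    rw [Finset.card_singleton] at this
    exact this
  have hN0' : (0 : ℝ) < N := by exact_mod_cast hN0
  have hfib : ∀ (v : ι → ℝ) (i : ι), fib s g v i =
      (fun b => ∑ j ∈ s with g j = b, v j) (g i) := fun v i => by
    unfold fib
    exact Finset.sum_congr (by congr) fun _ _ => rfl
  -- termwise
  have h1 : ∀ i ∈ s, u i * (Real.log (fib s g u i) - Real.log (u i)) ≤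
      u i * Real.log N + ((if 0 < u i then 1 else 0) * (fib s g u i / N) - u i) := by
    intro i hi
    rcases (hu i hi).eq_or_lt with h0 | h0
    · rw [← h0]; simp
    · have hf : 0 < fib s g u i := h0.trans_le (le_fib hu hi)
      have := log_le_div h0 (div_pos hf hN0')
      rw [Real.log_div hf.ne' hN0'.ne'] at this
      rw [if_pos h0, one_mul]
      nlinarith
  have h2 : ∑ i ∈ s, (if 0 < u i then (1 : ℝ) else 0) * (fib s g u i / N) ≤ ∑ i ∈ s, u i := by
    simp only [hfib]
    rw [sum_fib (s := s) (g := g) (fun i => if 0 < u i then (1 : ℝ) else 0)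
      (fun b => (∑ j ∈ s with g j = b, u j) / N)]
    have h3 : ∑ i ∈ s, u i = ∑ b ∈ s.image g, ∑ i ∈ s with g i = b, u i := by
      have := sum_fib (s := s) (g := g) u (fun _ => 1)
      simpa using this
    rw [h3]
    refine Finset.sum_le_sum fun b _ => ?_
    have hc : (∑ i ∈ s with g i = b, if 0 < u i then (1 : ℝ) else 0) ≤ N := by
      rw [← Finset.sum_filter, Finset.sum_const, nsmul_eq_mul, mul_one]
      have := hN b ((s.filter (fun i => g i = b)).filter (fun i => 0 < u i)) (by
        intro i hi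
        simp only [Finset.mem_filter] at hi
        exact ⟨hi.1.1, hi.1.2, hi.2⟩)
      exact_mod_cast this
    have h0 : 0 ≤ ∑ i ∈ s with g i = b, u i :=
      Finset.sum_nonneg fun i hi => hu i (Finset.mem_filter.1 hi).1
    calc (∑ i ∈ s with g i = b, if 0 < u i then (1 : ℝ) else 0) *
          ((∑ i ∈ s with g i = b, u i) / N)
        ≤ N * ((∑ i ∈ s with g i = b, u i) / N) :=
          mul_le_mul_of_nonneg_right hc (div_nonneg h0 hN0'.le)
      _ = ∑ i ∈ s with g i = b, u i := by field_simp
  calc En s g u ≤ ∑ i ∈ s, (u i * Real.log N +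
        ((if 0 < u i then 1 else 0) * (fib s g u i / N) - u i)) := Finset.sum_le_sum h1
    _ = (∑ i ∈ s, u i) * Real.log N + (∑ i ∈ s, (if 0 < u i then (1 : ℝ) else 0) *
        (fib s g u i / N) - ∑ i ∈ s, u i) := by
        rw [Finset.sum_add_distrib, Finset.sum_sub_distrib, Finset.sum_mul]
    _ ≤ _ := by linarith

/-- Fannes for finite sums -/
theorem fannes_fin {p q : ι → ℝ} (hp : ∀ i ∈ s, 0 ≤ p i) (hq : ∀ i ∈ s, 0 ≤ q i)
    (hq1 : ∑ i ∈ s, q i ≤ 1) (N : ℕ)
    (hN : ∀ b, ∀ t : Finset ι, (∀ i ∈ t, i ∈ s ∧ g i = b ∧ 0 < q i) → t.card ≤ N)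
    {δ : ℝ} (hδ : ∀ t ⊆ s, ∑ i ∈ t, q i ≤ ∑ i ∈ t, p i + δ) :
    En s g q ≤ En s g p + δ * Real.log N + Real.log 2 := by
  classical
  set m : ι → ℝ := fun i => min (p i) (q i) with hmdef
  set r : ι → ℝ := fun i => q i - m i with hrdef
  set r' : ι → ℝ := fun i => p i - m i with hr'def
  have hm : ∀ i ∈ s, 0 ≤ m i := fun i hi => le_min (hp i hi) (hq i hi)
  have hr : ∀ i ∈ s, 0 ≤ r i := fun i _ => by
    have : m i ≤ q i := min_le_right _ _
    simp only [hrdef]; linarith
  have hr' : ∀ i ∈ s, 0 ≤ r' i := fun i _ => by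
    have : m i ≤ p i := min_le_left _ _
    simp only [hr'def]; linarith
  have h1 := En_split (g := g) (u := q) hm hr (fun i => by simp only [hrdef]; ring)
  have h2 := En_mono (g := g) (u := p) hm hr' (fun i => by simp only [hr'def]; ring)
  have h3 : En s g r ≤ (∑ i ∈ s, r i) * Real.log N := by
    refine En_card hr N fun b t ht => hN b t fun i hi => ?_
    obtain ⟨h1, h2, h3⟩ := ht i hi
    refine ⟨h1, h2, ?_⟩
    have : 0 ≤ m i := hm i h1
    simp only [hrdef] at h3
    linarith
  have h4 : ∑ i ∈ s, r i ≤ δ := by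
    have e1 : ∑ i ∈ s, r i = ∑ i ∈ s with p i < q i, (q i - p i) := by
      rw [Finset.sum_filter]
      refine Finset.sum_congr rfl fun i _ => ?_
      simp only [hrdef, hmdef]
      split_ifs with hc
      · rw [min_eq_left hc.le]
      · rw [min_eq_right (not_lt.1 hc)]; ring
    rw [e1, Finset.sum_sub_distrib]
    have := hδ (s.filter (fun i => p i < q i)) (Finset.filter_subset _ _)
    linarith
  have hlog2 : 0 ≤ Real.log 2 := Real.log_nonneg (by norm_num)
  have hlogN : 0 ≤ Real.log N := by
    rcases Nat.eq_zero_or_pos N with h0 | h0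
    · rw [h0]; simp
    · exact Real.log_nonneg (by exact_mod_cast h0)
  have h5 : (∑ i ∈ s, q i) * Real.log 2 ≤ Real.log 2 := by
    nlinarith
  have h6 : (∑ i ∈ s, r i) * Real.log N ≤ δ * Real.log N :=
    mul_le_mul_of_nonneg_right h4 hlogN
  linarith

end fin

section law

variable {Ω Ω' : Type} [Fintype Ω] [Fintype Ω'] {A B : Type*}

/-- `hc` as a finite sum -/
theorem hc_eq_En (P : Law Ω) (F : Ω → A) (G : Ω → B) (s : Finset (A × B))
    (hs : ∀ ω, (F ω, G ω) ∈ s) :
    hc P F G = En s Prod.snd (fun z => P.pr (fun ω => (F ω, G ω)) z) := by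
  classical
  have hfib : ∀ z ∈ s, fib s Prod.snd (fun z => P.pr (fun ω => (F ω, G ω)) z) z = P.pr G z.2 := by
    intro z _
    unfold fib Law.pr
    rw [Finset.sum_comm' (t' := univ.filter (fun ω => G ω = z.2))
      (s' := fun ω => {(F ω, G ω)})]
    · refine Finset.sum_congr (by congr) fun ω _ => ?_
      simp
    · intro z' ω
      simp only [mem_filter, mem_univ, true_and, mem_singleton]
      constructor
      · rintro ⟨⟨h1, h2⟩, h3⟩
        refine ⟨h3.symm, ?_⟩
        rw [← h2, ← h3]
      · rintro ⟨h1, h2⟩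
        subst h1
        exact ⟨⟨hs ω, h2⟩, rfl⟩
  have himg : img (fun ω => (F ω, G ω)) ⊆ s := by
    intro z hz
    obtain ⟨ω, rfl⟩ := mem_img.1 hz
    exact hs ω
  have h0 : ∀ z ∈ s, z ∉ img (fun ω => (F ω, G ω)) →
      P.pr (fun ω => (F ω, G ω)) z = 0 := by
    intro z _ hz
    unfold Law.pr
    refine Finset.sum_eq_zero fun ω hω => ?_
    exfalso
    simp only [Finset.mem_filter, mem_univ, true_and] at hω
    exact hz (mem_img.2 ⟨ω, hω⟩)
  unfold En
  rw [← Finset.sum_subset himg (fun z hz hz' => by simp only [h0 z hz hz', zero_mul])]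
  have h1 : hc P F G = P.ex (fun ω => (fun z : A × B => Real.log (P.pr G z.2) -
      Real.log (P.pr (fun ω => (F ω, G ω)) z)) (F ω, G ω)) := by
    unfold hc Law.H
    rw [← P.ex_sub]
    unfold Law.ex
    refine Finset.sum_congr rfl fun ω _ => ?_
    ring
  rw [h1, P.ex_comp (fun ω => (F ω, G ω)) (fun z : A × B => Real.log (P.pr G z.2) -
      Real.log (P.pr (fun ω => (F ω, G ω)) z))]
  refine Finset.sum_congr rfl fun z hz => ?_
  rw [hfib z (himg hz)]

open Classical in
/-- the probability of a finite set of values -/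
noncomputable def prs (P : Law Ω) {S : Type*} (X : Ω → S) (t : Finset S) : ℝ :=
  ∑ ω with X ω ∈ t, P.w ω

theorem prs_eq (P : Law Ω) {S : Type*} (X : Ω → S) (t : Finset S) :
    prs P X t = ∑ x ∈ t, P.pr X x := by
  classical
  unfold prs Law.pr
  rw [Finset.sum_comm' (t' := univ.filter (fun ω => X ω ∈ t)) (s' := fun ω => {X ω})]
  · refine Finset.sum_congr (by congr) fun ω _ => ?_
    simp
  · intro x ω
    simp only [mem_filter, mem_univ, true_and, mem_singleton]
    constructor
    · rintro ⟨h1, h2⟩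
      exact ⟨h2.symm, h2 ▸ h1⟩
    · rintro ⟨h1, h2⟩
      exact ⟨h1 ▸ h2, h1.symm⟩

theorem prs_le_one (P : Law Ω) {S : Type*} (X : Ω → S) (t : Finset S) : prs P X t ≤ 1 := by
  classical
  unfold prs
  rw [← P.sum_one]
  refine Finset.sum_le_sum_of_subset_of_nonneg ?_ fun ω _ _ => P.nn ω
  exact Finset.filter_subset _ _

/-- one-sided total variation, set form: the law of `X'` under `P'` is within `δ` of the law
of `X` under `P` -/
def TVle {S : Type*} (P : Law Ω) (X : Ω → S) (P' : Law Ω') (X' : Ω' → S) (δ : ℝ) : Prop :=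
  ∀ t : Finset S, prs P' X' t ≤ prs P X t + δ

/-- **Fannes**, conditional form with `N` values -/
theorem fannes (P : Law Ω) (P' : Law Ω') (F : Ω → A) (G : Ω → B) (F' : Ω' → A) (G' : Ω' → B)
    {δ : ℝ} (hδ : TVle P (fun ω => (F ω, G ω)) P' (fun ω => (F' ω, G' ω)) δ) (N : ℕ)
    (hN : ∀ ω, 0 < P'.w ω → ∃ T : Finset A, T.card ≤ N ∧
      ∀ ω', 0 < P'.w ω' → G' ω' = G' ω → F' ω' ∈ T) :
    hc P' F' G' ≤ hc P F G + δ * Real.log N + Real.log 2 := by
  classical
  set s : Finset (A × B) := img (fun ω => (F ω, G ω)) ∪ img (fun ω => (F' ω, G' ω)) with hs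
  rw [hc_eq_En P F G s (fun ω => by rw [hs]; exact Finset.mem_union_left _ (mem_img.2 ⟨ω, rfl⟩)),
    hc_eq_En P' F' G' s
      (fun ω => by rw [hs]; exact Finset.mem_union_right _ (mem_img.2 ⟨ω, rfl⟩))]
  refine fannes_fin (fun z _ => P.pr_nonneg _ _) (fun z _ => P'.pr_nonneg _ _) ?_ N ?_ ?_
  · rw [← prs_eq]
    exact prs_le_one P' _ s
  · intro b t ht
    rcases t.eq_empty_or_nonempty with h0 | ⟨z0, hz0⟩
    · rw [h0]; simp
    · have hpos : ∀ z ∈ t, ∃ ω, 0 < P'.w ω ∧ (F' ω, G' ω) = z := by
        intro z hz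
        obtain ⟨_, _, h3⟩ := ht z hz
        by_contra hcon
        push Not at hcon
        have : P'.pr (fun ω => (F' ω, G' ω)) z ≤ 0 := by
          unfold Law.pr
          refine Finset.sum_nonpos fun ω hω => ?_
          by_contra hc
          simp only [Finset.mem_filter, mem_univ, true_and] at hω
          exact hcon ω (not_le.1 hc) hω
        linarith
      obtain ⟨ω0, hω0, e0⟩ := hpos z0 hz0
      obtain ⟨T, hT1, hT2⟩ := hN ω0 hω0
      have hinj : Set.InjOn Prod.fst (t : Set (A × B)) := by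
        intro z hz z' hz' e
        obtain ⟨_, h2, _⟩ := ht z hz
        obtain ⟨_, h2', _⟩ := ht z' hz'
        exact Prod.ext e (h2.trans h2'.symm)
      have : t.image Prod.fst ⊆ T := by
        intro a ha
        obtain ⟨z, hz, rfl⟩ := Finset.mem_image.1 ha
        obtain ⟨ω, hω, e⟩ := hpos z hz
        obtain ⟨_, h2, _⟩ := ht z hz
        obtain ⟨_, h20, _⟩ := ht z0 hz0
        have := hT2 ω hω (by
          have e1 := congrArg Prod.snd e
          have e2 := congrArg Prod.snd e0
          simp only at e1 e2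
          rw [e1, e2, h2, h20])
        have e1 := congrArg Prod.fst e
        simp only at e1
        rwa [e1] at this
      calc t.card = (t.image Prod.fst).card := (Finset.card_image_of_injOn hinj).symm
        _ ≤ T.card := Finset.card_le_card this
        _ ≤ N := hT1
  · intro t _
    have := hδ t
    rw [prs_eq, prs_eq] at this
    exact this

end law

end Vale.Agent.P127.TV
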