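import Vale.Agent.P127.U.Pin
import Vale.Agent.P127.TV.Fannes

/-!
# P127 / TV : sub-couplings

A sub-coupling of two finite laws supported on a relation `R`, of mass at least `1 - ε`.
They compose with exact addition of the errors, are robust to rounding, and a family of
approximate self-couplings of a law which spreads the points gives a lower bound for the
conditional entropy of the fine digits given the coarse digits.
-/

namespace Vale.Agent.P127.TV

open Finset Vale.Agent.P127 Vale.Agent.P127.Stk Vale.Agent.P127.U.Pin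

/-- `q` is a sub-coupling of `P` and `Q`, supported on `R`, of mass at least `1 - ε` -/
def SubC {Ω₁ Ω₂ : Type} [Fintype Ω₁] [Fintype Ω₂] (P : Law Ω₁) (Q : Law Ω₂)
    (R : Ω₁ → Ω₂ → Prop) (ε : ℝ) : Prop :=
  ∃ q : Ω₁ → Ω₂ → ℝ, (∀ a b, 0 ≤ q a b) ∧ (∀ a, ∑ b, q a b ≤ P.w a) ∧
    (∀ b, ∑ a, q a b ≤ Q.w b) ∧ (∀ a b, 0 < q a b → R a b) ∧ 1 - ε ≤ ∑ a, ∑ b, q a b

section basic

variable {Ω₁ Ω₂ Ω₃ : Type} [Fintype Ω₁] [Fintype Ω₂] [Fintype Ω₃]
  {P : Law Ω₁} {Q : Law Ω₂} {T : Law Ω₃}

theorem SubC.mono {R R' : Ω₁ → Ω₂ → Prop} {ε ε' : ℝ} (h : SubC P Q R ε)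
    (hR : ∀ a b, R a b → R' a b) (hε : ε ≤ ε') : SubC P Q R' ε' := by
  obtain ⟨q, h0, h1, h2, h3, h4⟩ := h
  exact ⟨q, h0, h1, h2, fun a b hq => hR a b (h3 a b hq), by linarith⟩

/-- the relation may be restricted to the supports -/
theorem SubC.pos {R : Ω₁ → Ω₂ → Prop} {ε : ℝ} (h : SubC P Q R ε) :
    SubC P Q (fun a b => 0 < P.w a ∧ 0 < Q.w b ∧ R a b) ε := by
  obtain ⟨q, h0, h1, h2, h3, h4⟩ := h
  refine ⟨q, h0, h1, h2, fun a b hq => ⟨?_, ?_, h3 a b hq⟩, h4⟩
  · exact hq.trans_le ((Finset.single_le_sum (fun b _ => h0 a b) (mem_univ b)).trans (h1 a))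
  · exact hq.trans_le ((Finset.single_le_sum (fun a _ => h0 a b) (mem_univ a)).trans (h2 b))

theorem SubC.symm {R : Ω₁ → Ω₂ → Prop} {ε : ℝ} (h : SubC P Q R ε) :
    SubC Q P (fun b a => R a b) ε := by
  obtain ⟨q, h0, h1, h2, h3, h4⟩ := h
  refine ⟨fun b a => q a b, fun b a => h0 a b, h2, h1, fun b a hq => h3 a b hq, ?_⟩
  rw [Finset.sum_comm]
  exact h4

theorem SubC.triv {R : Ω₁ → Ω₂ → Prop} {ε : ℝ} (hε : 1 ≤ ε) : SubC P Q R ε := by
  refine ⟨fun _ _ => 0, fun _ _ => le_rfl, fun a => ?_, fun b => ?_, fun a b h => ?_, ?_⟩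
  · simpa using P.nn a
  · simpa using Q.nn b
  · exact absurd h (lt_irrefl _)
  · simp
    exact hε

theorem SubC.refl (P : Law Ω₁) : SubC P P (fun a b => a = b) 0 := by
  classical
  refine ⟨fun a b => if a = b then P.w a else 0, fun a b => ?_, fun a => ?_, fun b => ?_,
    fun a b h => ?_, ?_⟩
  · dsimp only
    split_ifs
    · exact P.nn a
    · exact le_rfl
  · simp
  · simp
  · by_contra hne
    dsimp only at h hne
    rw [if_neg hne] at h
    exact lt_irrefl _ h
  · simp [P.sum_one]

/-- **composition**: the errors add -/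
theorem SubC.comp {R : Ω₁ → Ω₂ → Prop} {R' : Ω₂ → Ω₃ → Prop} {ε ε' : ℝ}
    (h : SubC P Q R ε) (h' : SubC Q T R' ε') :
    SubC P T (fun a c => ∃ b, R a b ∧ R' b c) (ε + ε') := by
  obtain ⟨q, h0, h1, h2, h3, h4⟩ := h
  obtain ⟨r, k0, k1, k2, k3, k4⟩ := h'
  refine ⟨fun a c => ∑ b, q a b * r b c / Q.w b, fun a c => ?_, fun a => ?_, fun c => ?_,
    fun a c hq => ?_, ?_⟩
  · exact Finset.sum_nonneg fun b _ => div_nonneg (mul_nonneg (h0 a b) (k0 b c)) (Q.nn b)
  · rw [Finset.sum_comm]
    refine le_trans (Finset.sum_le_sum fun b _ => ?_) (h1 a)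
    rw [← Finset.sum_div, ← Finset.mul_sum, mul_div_assoc]
    exact mul_le_of_le_one_right (h0 a b) (div_le_one_of_le₀ (k1 b) (Q.nn b))
  · rw [Finset.sum_comm]
    refine le_trans (Finset.sum_le_sum fun b _ => ?_) (k2 c)
    have : ∑ a, q a b * r b c / Q.w b = r b c * ((∑ a, q a b) / Q.w b) := by
      rw [← Finset.sum_div, ← Finset.sum_mul]
      ring
    rw [this]
    exact mul_le_of_le_one_right (k0 b c) (div_le_one_of_le₀ (h2 b) (Q.nn b))
  · by_contra hcon
    push Not at hcon
    have : ∑ b, q a b * r b c / Q.w b = 0 := by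
      refine Finset.sum_eq_zero fun b _ => ?_
      rcases (h0 a b).eq_or_lt with e | e
      · rw [← e]; simp
      · rcases (k0 b c).eq_or_lt with e' | e'
        · rw [← e']; simp
        · exact absurd (k3 b c e') (hcon b (h3 a b e))
    dsimp only at hq
    rw [this] at hq
    exact lt_irrefl _ hq
  · have e1 : ∑ a, ∑ c, ∑ b, q a b * r b c / Q.w b =
        ∑ b, (∑ a, q a b) * (∑ c, r b c) / Q.w b := by
      have : ∀ a, ∑ c, ∑ b, q a b * r b c / Q.w b = ∑ b, ∑ c, q a b * r b c / Q.w b :=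
        fun a => Finset.sum_comm
      rw [Finset.sum_congr rfl fun a _ => this a, Finset.sum_comm]
      refine Finset.sum_congr rfl fun b _ => ?_
      rw [Finset.sum_mul_sum, Finset.sum_div]
      exact Finset.sum_congr rfl fun a _ => by rw [Finset.sum_div]
    rw [e1]
    have e2 : ∀ b, (∑ a, q a b) + (∑ c, r b c) - Q.w b ≤
        (∑ a, q a b) * (∑ c, r b c) / Q.w b := by
      intro b
      have hA : 0 ≤ ∑ a, q a b := Finset.sum_nonneg fun a _ => h0 a b
      have hC : 0 ≤ ∑ c, r b c := Finset.sum_nonneg fun c _ => k0 b c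
      have hA' := h2 b
      have hC' := k1 b
      rcases (Q.nn b).eq_or_lt with e | e
      · rw [← e] at hA' hC' ⊢
        rw [div_zero]
        linarith
      · rw [le_div_iff₀ e]
        nlinarith [mul_nonneg (sub_nonneg.2 hA') (sub_nonneg.2 hC')]
    have e3 := Finset.sum_le_sum fun b (_ : b ∈ (univ : Finset Ω₂)) => e2 b
    rw [Finset.sum_sub_distrib, Finset.sum_add_distrib, Q.sum_one] at e3
    rw [Finset.sum_comm] at h4
    linarith

/-- equal values of two variables with close laws -/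
theorem SubC.of_dl {S : Type*} (P : Law Ω₁) (X : Ω₁ → S) (Q : Law Ω₂) (Y : Ω₂ → S) :
    SubC P Q (fun a b => X a = Y b) (dl P X Q Y / 2) := by
  classical
  set p : S → ℝ := fun s => P.pr X s with hp
  set r : S → ℝ := fun s => Q.pr Y s with hr
  have hp0 : ∀ s, 0 ≤ p s := fun s => P.pr_nonneg X s
  have hr0 : ∀ s, 0 ≤ r s := fun s => Q.pr_nonneg Y s
  set m : S → ℝ := fun s => min (p s) (r s) with hm
  have hm0 : ∀ s, 0 ≤ m s := fun s => le_min (hp0 s) (hr0 s)
  have hmp : ∀ s, m s ≤ p s := fun s => min_le_left _ _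
  have hmr : ∀ s, m s ≤ r s := fun s => min_le_right _ _
  have hsumY : ∀ s, ∑ b, (if s = Y b then Q.w b else 0) = r s := by
    intro s
    rw [← Finset.sum_filter]
    simp only [hr]
    unfold Law.pr
    refine Finset.sum_congr ?_ fun _ _ => rfl
    ext b
    simp [eq_comm]
  have hsumX : ∀ s, ∑ a, (if X a = s then P.w a else 0) = p s := by
    intro s
    rw [← Finset.sum_filter]
    simp only [hp]
    unfold Law.pr
    refine Finset.sum_congr ?_ fun _ _ => rfl
    ext b
    simp
  have hrow : ∀ a, ∑ b, (if X a = Y b then P.w a * Q.w b * (m (X a) / (p (X a) * r (X a))) else 0)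
      = P.w a * (m (X a) / p (X a)) := by
    intro a
    have e1 : ∑ b, (if X a = Y b then P.w a * Q.w b * (m (X a) / (p (X a) * r (X a))) else 0) =
        P.w a * (m (X a) / (p (X a) * r (X a))) * ∑ b, (if X a = Y b then Q.w b else 0) := by
      rw [Finset.mul_sum]
      refine Finset.sum_congr rfl fun b _ => ?_
      split_ifs <;> ring
    rw [e1, hsumY]
    rcases (hr0 (X a)).eq_or_lt with e | e
    · have : m (X a) = 0 := le_antisymm (by rw [e]; exact hmr _) (hm0 _)
      rw [this]; simp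
    · rw [mul_assoc]
      congr 1
      rw [div_mul_eq_mul_div, mul_div_mul_right _ _ e.ne']
  refine ⟨fun a b => if X a = Y b then P.w a * Q.w b * (m (X a) / (p (X a) * r (X a))) else 0,
    fun a b => ?_, fun a => ?_, fun b => ?_, fun a b h => ?_, ?_⟩
  · dsimp only
    split_ifs
    · exact mul_nonneg (mul_nonneg (P.nn a) (Q.nn b))
        (div_nonneg (hm0 _) (mul_nonneg (hp0 _) (hr0 _)))
    · exact le_rfl
  · rw [hrow]
    exact mul_le_of_le_one_right (P.nn a) (div_le_one_of_le₀ (hmp _) (hp0 _))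
  · have e1 : ∑ a, (if X a = Y b then P.w a * Q.w b * (m (X a) / (p (X a) * r (X a))) else 0) =
        Q.w b * (m (Y b) / (p (Y b) * r (Y b))) * ∑ a, (if X a = Y b then P.w a else 0) := by
      rw [Finset.mul_sum]
      refine Finset.sum_congr rfl fun a _ => ?_
      split_ifs with hc
      · rw [hc]; ring
      · ring
    rw [e1, hsumX]
    rcases (hp0 (Y b)).eq_or_lt with e | e
    · have : m (Y b) = 0 := le_antisymm (by rw [e]; exact hmp _) (hm0 _)
      rw [this]
      simpa using Q.nn b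
    · have e2 : Q.w b * (m (Y b) / (p (Y b) * r (Y b))) * p (Y b) =
          Q.w b * (m (Y b) / r (Y b)) := by
        rw [mul_assoc]
        congr 1
        rw [div_mul_eq_mul_div, mul_comm (p (Y b)) (r (Y b)), mul_div_mul_right _ _ e.ne']
      rw [e2]
      exact mul_le_of_le_one_right (Q.nn b) (div_le_one_of_le₀ (hmr _) (hr0 _))
  · by_contra hne
    dsimp only at h hne
    rw [if_neg hne] at h
    exact lt_irrefl _ h
  · rw [Finset.sum_congr rfl fun a _ => hrow a]
    have e1 : ∑ a, P.w a * (m (X a) / p (X a)) = ∑ s ∈ img X, p s * (m s / p s) :=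
      P.ex_comp X (fun s => m s / p s)
    rw [e1]
    have e2 : ∑ s ∈ img X, p s * (m s / p s) = ∑ s ∈ img X, m s := by
      refine Finset.sum_congr rfl fun s _ => ?_
      rcases (hp0 s).eq_or_lt with e | e
      · have : m s = 0 := le_antisymm (by rw [e]; exact hmp _) (hm0 _)
        rw [this]; simp
      · rw [mul_div_cancel₀ _ e.ne']
    rw [e2]
    have e3 : ∑ s ∈ img X, m s = ∑ s ∈ img X ∪ img Y, m s := by
      refine Finset.sum_subset Finset.subset_union_left fun s _ hs => ?_
      have : p s = 0 := pr_zero_of_not_img P X hs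
      exact le_antisymm (by rw [← this]; exact hmp _) (hm0 _)
    rw [e3]
    have e4 : ∀ s, m s = (p s + r s - |p s - r s|) / 2 := by
      intro s
      simp only [hm]
      rcases le_total (p s) (r s) with hc | hc
      · rw [min_eq_left hc, abs_of_nonpos (by linarith)]; ring
      · rw [min_eq_right hc, abs_of_nonneg (by linarith)]; ring
    rw [Finset.sum_congr rfl fun s _ => e4 s, ← Finset.sum_div, Finset.sum_sub_distrib,
      Finset.sum_add_distrib]
    have e5 : ∑ s ∈ img X ∪ img Y, p s = 1 := by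
      rw [← P.sum_pr_image X]
      symm
      refine Finset.sum_subset Finset.subset_union_left fun s _ hs => ?_
      exact pr_zero_of_not_img P X hs
    have e6 : ∑ s ∈ img X ∪ img Y, r s = 1 := by
      rw [← Q.sum_pr_image Y]
      symm
      refine Finset.sum_subset Finset.subset_union_right fun s _ hs => ?_
      exact pr_zero_of_not_img Q Y hs
    have e7 : ∑ s ∈ img X ∪ img Y, |p s - r s| = dl P X Q Y := rfl
    rw [e5, e6, e7]
    linarith

end basic

/-! ### mixing, two independences, iteration -/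

section mix

variable {Ω : Type} [Fintype Ω] {S T U V : Type*}

/-- mixing over a conditioning variable -/
theorem SubC.mix (P : Law Ω) (D : Ω → U) (R : U → Ω → Ω → Prop) (ε : U → ℝ)
    (h : ∀ ω, 0 < P.w ω → SubC (P.cond D (D ω)) (P.cond D (D ω)) (R (D ω)) (ε (D ω))) :
    SubC P P (fun a b => D a = D b ∧ R (D a) a b) (P.ex (fun ω => ε (D ω))) := by
  classical
  have h' : ∀ d : U, ∃ q : Ω → Ω → ℝ, (∀ a b, 0 ≤ q a b) ∧
      (∀ a, P.pr D d * ∑ b, q a b ≤ if D a = d then P.w a else 0) ∧
      (∀ b, P.pr D d * ∑ a, q a b ≤ if D b = d then P.w b else 0) ∧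
      (∀ a b, 0 < q a b → D a = d ∧ D b = d ∧ R d a b) ∧
      P.pr D d * (1 - ε d) ≤ P.pr D d * ∑ a, ∑ b, q a b := by
    intro d
    rcases (P.pr_nonneg D d).eq_or_lt with e | e
    · refine ⟨fun _ _ => 0, fun _ _ => le_rfl, fun a => ?_, fun b => ?_, fun a b hq => ?_, ?_⟩
      · rw [← e, zero_mul]
        split_ifs
        · exact P.nn a
        · exact le_rfl
      · rw [← e, zero_mul]
        split_ifs
        · exact P.nn b
        · exact le_rfl
      · exact absurd hq (lt_irrefl _)
      · rw [← e, zero_mul, zero_mul]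
    · have hex : ∃ ω, 0 < P.w ω ∧ D ω = d := by
        by_contra hcon
        push Not at hcon
        have : P.pr D d ≤ 0 := by
          unfold Law.pr
          refine Finset.sum_nonpos fun ω hω => ?_
          simp only [Finset.mem_filter, mem_univ, true_and] at hω
          by_contra hc
          exact hcon ω (not_le.1 hc) hω
        linarith
      obtain ⟨ω0, hω0, rfl⟩ := hex
      obtain ⟨q, h0, h1, h2, h3, h4⟩ := h ω0 hω0
      have hw : ∀ a, P.pr D (D ω0) * (P.cond D (D ω0)).w a =
          if D a = D ω0 then P.w a else 0 := by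
        intro a
        rw [P.cond_w D _ e a]
        split_ifs
        · rw [mul_div_cancel₀ _ e.ne']
        · rw [mul_zero]
      refine ⟨q, h0, fun a => ?_, fun b => ?_, fun a b hq => ⟨?_, ?_, h3 a b hq⟩, ?_⟩
      · rw [← hw]
        exact mul_le_mul_of_nonneg_left (h1 a) e.le
      · rw [← hw]
        exact mul_le_mul_of_nonneg_left (h2 b) e.le
      · have : 0 < (P.cond D (D ω0)).w a :=
          hq.trans_le ((Finset.single_le_sum (fun b _ => h0 a b) (mem_univ b)).trans (h1 a))
        exact (cond_supp P D e this).1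
      · have : 0 < (P.cond D (D ω0)).w b :=
          hq.trans_le ((Finset.single_le_sum (fun a _ => h0 a b) (mem_univ a)).trans (h2 b))
        exact (cond_supp P D e this).1
      · exact mul_le_mul_of_nonneg_left h4 e.le
  choose q h0 h1 h2 h3 h4 using h'
  refine ⟨fun a b => P.pr D (D a) * q (D a) a b,
    fun a b => mul_nonneg (P.pr_nonneg _ _) (h0 _ _ _), fun a => ?_, fun b => ?_,
    fun a b hq => ?_, ?_⟩
  · dsimp only
    rw [← Finset.mul_sum]
    have := h1 (D a) a
    rwa [if_pos rfl] at this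
  · have e1 : ∀ a, P.pr D (D a) * q (D a) a b = P.pr D (D b) * q (D b) a b := by
      intro a
      by_cases hD : D a = D b
      · rw [hD]
      · have e2 : q (D a) a b = 0 := by
          by_contra hne
          exact hD (h3 (D a) a b (lt_of_le_of_ne (h0 _ _ _) (Ne.symm hne))).2.1.symm
        have e3 : q (D b) a b = 0 := by
          by_contra hne
          exact hD (h3 (D b) a b (lt_of_le_of_ne (h0 _ _ _) (Ne.symm hne))).1
        rw [e2, e3, mul_zero, mul_zero]
    rw [Finset.sum_congr rfl fun a _ => e1 a, ← Finset.mul_sum]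
    have := h2 (D b) b
    rwa [if_pos rfl] at this
  · have hq' : 0 < q (D a) a b := by
      rcases (h0 (D a) a b).eq_or_lt with e | e
      · dsimp only at hq
        rw [← e, mul_zero] at hq
        exact absurd hq (lt_irrefl _)
      · exact e
    obtain ⟨_, k2, k3⟩ := h3 (D a) a b hq'
    exact ⟨k2.symm, k3⟩
  · have e1 : ∑ a, ∑ b, P.pr D (D a) * q (D a) a b =
        ∑ d ∈ img D, P.pr D d * ∑ a, ∑ b, q d a b := by
      rw [← Finset.sum_fiberwise_of_maps_to (g := D) (t := img D) (by simp)]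
      refine Finset.sum_congr rfl fun d _ => ?_
      rw [Finset.mul_sum, Finset.sum_filter]
      refine Finset.sum_congr rfl fun a _ => ?_
      split_ifs with hc
      · rw [Finset.mul_sum, hc]
      · have : ∑ b, q d a b = 0 := by
          refine Finset.sum_eq_zero fun b _ => ?_
          by_contra hne
          exact hc (h3 d a b (lt_of_le_of_ne (h0 _ _ _) (Ne.symm hne))).1
        rw [this, mul_zero]
    rw [e1, P.ex_comp D ε]
    have e2 := Finset.sum_le_sum fun d (_ : d ∈ img D) => h4 d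
    have e3 : ∑ d ∈ img D, P.pr D d * (1 - ε d) = 1 - ∑ d ∈ img D, P.pr D d * ε d := by
      have e4 : ∑ d ∈ img D, P.pr D d * (1 - ε d) =
          ∑ d ∈ img D, P.pr D d - ∑ d ∈ img D, P.pr D d * ε d := by
        rw [← Finset.sum_sub_distrib]
        exact Finset.sum_congr rfl fun d _ => by ring
      rw [e4, P.sum_pr_image D]
    linarith

/-- **two independences, with rounding**: two values `e, e'` of `E` -/
theorem SubC.two_ind (P : Law Ω) (E : Ω → S) (A : Ω → T) (B : Ω → V) {e e' : S}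
    (he : 0 < P.pr E e) (he' : 0 < P.pr E e') :
    SubC P P (fun a b => ∃ c d, 0 < P.w c ∧ 0 < P.w d ∧ E c = e ∧ E d = e' ∧ A a = A c ∧
        B c = B d ∧ A d = A b)
      ((dl (P.cond E e) A P A + dl (P.cond E e) B (P.cond E e') B +
        dl (P.cond E e') A P A) / 2) := by
  have h1 := SubC.of_dl P A (P.cond E e) A
  have h2 := (SubC.of_dl (P.cond E e) B (P.cond E e') B).pos
  have h3 := SubC.of_dl (P.cond E e') A P A
  have h := (h1.comp h2).comp h3
  refine h.mono ?_ ?_
  · rintro a b ⟨d, ⟨c, hac, hc, hd, hcd⟩, hdb⟩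
    exact ⟨c, d, (cond_supp P E he hc).2, (cond_supp P E he' hd).2, (cond_supp P E he hc).1,
      (cond_supp P E he' hd).1, hac, hcd, hdb⟩
  · rw [dl_symm P A]
    linarith

/-- the average error of `SubC.two_ind` over two independent values of `E` -/
theorem two_ind_err (P : Law Ω) (E : Ω → S) (A : Ω → T) (B : Ω → V) :
    P.ex (fun ω => P.ex (fun ω' => (dl (P.cond E (E ω)) A P A +
      dl (P.cond E (E ω)) B (P.cond E (E ω')) B + dl (P.cond E (E ω')) A P A) / 2)) ≤
      il P E A + il P E B := by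
  have h1 : P.ex (fun ω => P.ex (fun ω' => (dl (P.cond E (E ω)) A P A +
      dl (P.cond E (E ω)) B (P.cond E (E ω')) B + dl (P.cond E (E ω')) A P A) / 2)) ≤
      P.ex (fun ω => P.ex (fun ω' => (1 / 2 : ℝ) * ((dl (P.cond E (E ω)) A P A +
        dl (P.cond E (E ω)) B P B) + (dl (P.cond E (E ω')) A P A +
        dl (P.cond E (E ω')) B P B)))) := by
    refine P.ex_mono fun ω _ => P.ex_mono fun ω' _ => ?_
    have := dl_tri (P.cond E (E ω)) B P B (P.cond E (E ω')) B
    rw [dl_symm P B] at this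
    linarith
  refine h1.trans (le_of_eq ?_)
  simp only [P.ex_const_mul, P.ex_add, P.ex_const]
  rw [il_eq_ex, il_eq_ex]
  ring

/-- iteration -/
theorem SubC.iter {P : Law Ω} {R : Ω → Ω → Prop} {ε : ℝ} (h : SubC P P R ε)
    (Rk : ℕ → Ω → Ω → Prop) (h0 : ∀ a, Rk 0 a a)
    (hs : ∀ k a b c, Rk k a b → R b c → Rk (k + 1) a c) (n : ℕ) :
    SubC P P (Rk n) (n * ε) := by
  induction n with
  | zero =>
    refine (SubC.refl P).mono (fun a b e => e ▸ h0 a) (by simp)
  | succ n ih =>
    refine (ih.comp h).mono ?_ ?_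
    · rintro a c ⟨b, h1, h2⟩
      exact hs n a b c h1 h2
    · push_cast
      linarith

end mix

/-! ### spread -/

section spread

variable {Ω Ω' : Type} [Fintype Ω] [Fintype Ω'] {A B : Type*}

lemma En_smul {ι β : Type*} (s : Finset ι) (g : ι → β) (u : ι → ℝ) {c : ℝ} (hc : 0 < c)
    (hu : ∀ i ∈ s, 0 ≤ u i) :
    En s g (fun i => c * u i) = c * En s g u := by
  classical
  unfold En
  rw [Finset.mul_sum]
  refine Finset.sum_congr rfl fun i hi => ?_
  have e1 : fib s g (fun i => c * u i) i = c * fib s g u i := by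
    unfold fib
    rw [Finset.mul_sum]
  rw [e1]
  rcases (hu i hi).eq_or_lt with e | e
  · have e' : u i = 0 := e.symm
    simp [e']
  · have hf : 0 < fib s g u i := e.trans_le (le_fib hu hi)
    rw [Real.log_mul hc.ne' hf.ne', Real.log_mul hc.ne' e.ne']
    ring

/-- domination of the joint laws -/
theorem dom_hc (P : Law Ω) (Q : Law Ω') (F : Ω → A) (G : Ω → B) (F' : Ω' → A) (G' : Ω' → B)
    {M : ℝ} (hM : 0 < M)
    (h : ∀ x, M * Q.pr (fun ω => (F' ω, G' ω)) x ≤ P.pr (fun ω => (F ω, G ω)) x) :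
    M * hc Q F' G' ≤ hc P F G := by
  classical
  set s : Finset (A × B) := img (fun ω => (F ω, G ω)) ∪ img (fun ω => (F' ω, G' ω)) with hs
  rw [hc_eq_En P F G s (fun ω => by rw [hs]; exact Finset.mem_union_left _ (mem_img.2 ⟨ω, rfl⟩)),
    hc_eq_En Q F' G' s
      (fun ω => by rw [hs]; exact Finset.mem_union_right _ (mem_img.2 ⟨ω, rfl⟩)),
    ← En_smul s Prod.snd _ hM (fun z _ => Q.pr_nonneg _ _)]
  refine En_mono (r := fun z => P.pr (fun ω => (F ω, G ω)) z -
    M * Q.pr (fun ω => (F' ω, G' ω)) z) (fun z _ => mul_nonneg hM.le (Q.pr_nonneg _ _))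
    (fun z _ => sub_nonneg.2 (h z)) (fun z => by ring)

/-- **SPREAD**: approximate self-couplings of `P` which spread the points give entropy of the
fine label `f` given the coarse label `g` -/
theorem spread (P : Law Ω) {K : Type} [Fintype K] [Nonempty K] (R : K → Ω → Ω → Prop)
    (ε : K → ℝ) (hR : ∀ k, SubC P P (R k) (ε k)) (f : Ω → A) (g : Ω → B) (C0 C1 : ℕ)
    (h0 : ∀ a b, 0 < P.w a → 0 < P.w b → ∃ t : Finset K, t.card ≤ C0 ∧
      ∀ k b', 0 < P.w b' → R k a b' → f b' = f b → k ∈ t)
    (h1 : ∀ a, 0 < P.w a → ∃ t : Finset B, t.card ≤ C1 ∧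
      ∀ k b, 0 < P.w b → R k a b → g b ∈ t) :
    (1 - (∑ k, ε k) / Fintype.card K) * Real.log (Fintype.card K) -
      (∑ k, ε k) / Fintype.card K - Real.log C0 - Real.log C1 ≤ hc P f g := by
  classical
  have hKn : 0 < Fintype.card K := Fintype.card_pos
  have hK : (0 : ℝ) < Fintype.card K := by exact_mod_cast hKn
  have hlogK : 0 ≤ Real.log (Fintype.card K) := Real.log_nonneg (by exact_mod_cast hKn)
  have hl : ∀ n : ℕ, 0 ≤ Real.log n := by
    intro n
    rcases Nat.eq_zero_or_pos n with e | e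
    · rw [e]; simp
    · exact Real.log_nonneg (by exact_mod_cast e)
  set εb : ℝ := (∑ k, ε k) / Fintype.card K with hεb
  choose q q0 q1 q2 q3 q4 using fun k => (hR k).pos
  set M : ℝ := (∑ k, ∑ a, ∑ b, q k a b) / Fintype.card K with hM
  have hM1 : M ≤ 1 := by
    rw [hM, div_le_one hK]
    have : ∀ k, ∑ a, ∑ b, q k a b ≤ 1 := by
      intro k
      rw [← P.sum_one]
      exact Finset.sum_le_sum fun a _ => q1 k a
    refine (Finset.sum_le_sum fun k _ => this k).trans (le_of_eq ?_)
    simp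
  have hMε : 1 - εb ≤ M := by
    rw [hM, hεb, le_div_iff₀ hK, sub_mul, div_mul_cancel₀ _ hK.ne', one_mul]
    have e1 := Finset.sum_le_sum fun k (_ : k ∈ (univ : Finset K)) => q4 k
    rw [Finset.sum_sub_distrib] at e1
    simp only [Finset.sum_const, Finset.card_univ, nsmul_eq_mul, mul_one] at e1
    linarith
  have hM0 : 0 ≤ M := div_nonneg (Finset.sum_nonneg fun k _ => Finset.sum_nonneg fun a _ =>
    Finset.sum_nonneg fun b _ => q0 k a b) hK.le
  rcases hM0.eq_or_lt with e | hMpos
  · -- no mass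
    rw [← e] at hMε
    have h2 := hc_nonneg P f g
    have h3 : (1 - εb) * Real.log (Fintype.card K) ≤ 0 :=
      mul_nonpos_of_nonpos_of_nonneg hMε hlogK
    have h4 := hl C0
    have h5 := hl C1
    linarith
  -- the normalised law on `K × Ω × Ω`
  have hKM : 0 < Fintype.card K * M := mul_pos hK hMpos
  let Q : Law (K × Ω × Ω) :=
    { w := fun z => q z.1 z.2.1 z.2.2 / (Fintype.card K * M)
      nn := fun z => div_nonneg (q0 _ _ _) hKM.le
      sum_one := by
        rw [← Finset.sum_div, Fintype.sum_prod_type]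
        have : ∀ k, ∑ y : Ω × Ω, q k y.1 y.2 = ∑ a, ∑ b, q k a b := fun k =>
          Fintype.sum_prod_type _
        rw [Finset.sum_congr rfl fun k _ => this k]
        rw [hM, mul_div_cancel₀ _ hK.ne']
        refine div_self ?_
        intro hz
        rw [hM, hz, zero_div] at hMpos
        exact lt_irrefl _ hMpos }
  have hQw : ∀ z, Q.w z = q z.1 z.2.1 z.2.2 / (Fintype.card K * M) := fun z => rfl
  have hQpos : ∀ z, 0 < Q.w z → 0 < P.w z.2.1 ∧ 0 < P.w z.2.2 ∧ R z.1 z.2.1 z.2.2 := by
    intro z hz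
    rw [hQw] at hz
    refine q3 z.1 z.2.1 z.2.2 ?_
    by_contra hc
    exact absurd hz (not_lt.2 (div_nonpos_of_nonpos_of_nonneg (not_lt.1 hc) hKM.le))
  -- step 1: domination
  have s1 : M * hc Q (fun z => f z.2.2) (fun z => g z.2.2) ≤ hc P f g := by
    refine dom_hc P Q f g _ _ hMpos fun x => ?_
    have e1 : ∀ z : K × Ω × Ω, M * Q.w z = q z.1 z.2.1 z.2.2 / Fintype.card K := by
      intro z
      rw [hQw, ← mul_div_assoc, mul_comm (Fintype.card K : ℝ) M,
        mul_div_mul_left _ _ hMpos.ne']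
    rw [Law.pr_eq_ex, Law.pr_eq_ex]
    unfold Law.ex
    rw [Finset.mul_sum, Fintype.sum_prod_type]
    have hind : ∀ b, 0 ≤ Law.ind ((f b, g b) = x) := by
      intro b
      by_cases hc : (f b, g b) = x
      · rw [Law.ind_of hc]; norm_num
      · rw [Law.ind_not hc]
    have e2 : ∀ k, ∑ y : Ω × Ω, M * (Q.w (k, y) *
        Law.ind ((f (k, y).2.2, g (k, y).2.2) = x)) ≤
        ∑ b, (P.w b * Law.ind ((f b, g b) = x)) / Fintype.card K := by
      intro k
      rw [Fintype.sum_prod_type, Finset.sum_comm]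
      refine Finset.sum_le_sum fun b _ => ?_
      dsimp only
      have e3 : ∀ a, M * (Q.w (k, a, b) * Law.ind ((f b, g b) = x)) =
          q k a b * (Law.ind ((f b, g b) = x) / Fintype.card K) := by
        intro a
        rw [← mul_assoc, e1 (k, a, b)]
        ring
      rw [Finset.sum_congr rfl fun a _ => e3 a, ← Finset.sum_mul, mul_div_assoc]
      exact mul_le_mul_of_nonneg_right (q2 k b) (div_nonneg (hind b) hK.le)
    refine (Finset.sum_le_sum fun k _ => e2 k).trans (le_of_eq ?_)
    rw [Finset.sum_const, Finset.card_univ, nsmul_eq_mul, ← Finset.sum_div,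
      mul_div_cancel₀ _ hK.ne']
  -- step 2: entropy calculus
  set κ : K × Ω × Ω → K := fun z => z.1 with hκ
  set Y : K × Ω × Ω → Ω := fun z => z.2.1 with hY
  set F' : K × Ω × Ω → A := fun z => f z.2.2 with hF'
  set G' : K × Ω × Ω → B := fun z => g z.2.2 with hG'
  have t1 : hc Q F' (fun z => (G' z, Y z)) ≤ hc Q F' G' :=
    hc_mono_right Q F' (fun _ _ _ _ e => congrArg Prod.fst e)
  have t2 := hc_pair Q G' F' Y
  have t3 : hc Q F' Y ≤ hc Q (fun z => (G' z, F' z)) Y :=
    hc_mono_left Q (fun _ _ _ _ e => by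
      simp only [Prod.mk.injEq] at e
      exact e.1.2)
  have t4 : hc Q G' Y ≤ Real.log C1 := by
    refine hc_le_log Q G' Y C1 fun z hz => ?_
    obtain ⟨t, ht1, ht2⟩ := h1 z.2.1 (hQpos z hz).1
    refine ⟨t, ht1, fun z' hz' e => ?_⟩
    obtain ⟨p1, p2, p3⟩ := hQpos z' hz'
    have e' : z'.2.1 = z.2.1 := e
    rw [e'] at p3
    exact ht2 z'.1 z'.2.2 p2 p3
  have t5 : hc Q κ (fun z => (F' z, Y z)) ≤ Real.log C0 := by
    refine hc_le_log Q κ _ C0 fun z hz => ?_
    obtain ⟨t, ht1, ht2⟩ := h0 z.2.1 z.2.2 (hQpos z hz).1 (hQpos z hz).2.1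
    refine ⟨t, ht1, fun z' hz' e => ?_⟩
    obtain ⟨p1, p2, p3⟩ := hQpos z' hz'
    simp only [Prod.mk.injEq] at e
    have e' : z'.2.1 = z.2.1 := e.2
    rw [e'] at p3
    exact ht2 z'.1 z'.2.2 p2 p3 e.1
  have t6 := hc_le_add Q κ F' Y
  -- step 3: the index is nearly uniform
  have s3 : Real.log (Fintype.card K) + Real.log M ≤ hc Q κ Y := by
    have g1 : Q.H Y ≤ Q.ex (fun z => - Real.log (P.w (Y z))) := by
      refine Q.gibbs Y P.w P.nn ?_ fun z hz => (hQpos z hz).1
      rw [← P.sum_one]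
      exact Finset.sum_le_sum_of_subset_of_nonneg (Finset.subset_univ _) fun a _ _ => P.nn a
    have g2 : Q.ex (fun z => (Real.log (Fintype.card K) + Real.log M) +
        - Real.log (P.w (Y z))) ≤ Q.H (fun z => (κ z, Y z)) := by
      unfold Law.H
      refine Q.ex_mono fun z hz => ?_
      have hp := Q.pr_pos (fun z => (κ z, Y z)) hz
      have hPw := (hQpos z hz).1
      have g3 : Q.pr (fun z => (κ z, Y z)) (κ z, Y z) ≤ P.w (Y z) / (Fintype.card K * M) := by
        rw [Law.pr_eq_ex]
        unfold Law.ex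
        have g4 : ∑ z' : K × Ω × Ω, Q.w z' * Law.ind ((κ z', Y z') = (κ z, Y z)) =
            (∑ b, q z.1 z.2.1 b) / (Fintype.card K * M) := by
          rw [Fintype.sum_prod_type,
            Finset.sum_eq_single z.1 (fun k _ hk => ?_) (fun h => absurd (mem_univ _) h),
            Fintype.sum_prod_type,
            Finset.sum_eq_single z.2.1 (fun a _ ha => ?_) (fun h => absurd (mem_univ _) h)]
          · rw [Finset.sum_div]
            refine Finset.sum_congr rfl fun b _ => ?_
            rw [Law.ind_of (by simp only [hκ, hY]), mul_one]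
          · refine Finset.sum_eq_zero fun b _ => ?_
            rw [Law.ind_not, mul_zero]
            simp only [hκ, hY, Prod.mk.injEq, true_and]
            exact ha
          · refine Finset.sum_eq_zero fun y _ => ?_
            rw [Law.ind_not, mul_zero]
            simp only [hκ, hY, Prod.mk.injEq, not_and]
            exact fun h => absurd h hk
        exact (le_of_eq g4).trans (div_le_div_of_nonneg_right (q1 z.1 z.2.1) hKM.le)
      have g5 := Real.log_le_log hp g3
      rw [Real.log_div hPw.ne' hKM.ne', Real.log_mul hK.ne' hMpos.ne'] at g5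
      linarith
    rw [Q.ex_add, Q.ex_const] at g2
    unfold hc
    linarith
  have s4 : M - 1 ≤ M * Real.log M := by
    have := log_le_div hMpos one_pos
    rw [Real.log_one] at this
    linarith
  -- conclusion
  have h5 : hc Q κ Y - Real.log C0 - Real.log C1 ≤ hc Q F' G' := by linarith
  have h6 : M * (hc Q κ Y - Real.log C0 - Real.log C1) ≤ M * hc Q F' G' :=
    mul_le_mul_of_nonneg_left h5 hMpos.le
  have h7 : M * (Real.log (Fintype.card K) + Real.log M) ≤ M * hc Q κ Y :=
    mul_le_mul_of_nonneg_left s3 hMpos.le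
  have h8 : (1 - εb) * Real.log (Fintype.card K) ≤ M * Real.log (Fintype.card K) :=
    mul_le_mul_of_nonneg_right hMε hlogK
  have h9 : M * Real.log C0 ≤ Real.log C0 := mul_le_of_le_one_left (hl C0) hM1
  have h10 : M * Real.log C1 ≤ Real.log C1 := mul_le_of_le_one_left (hl C1) hM1
  nlinarith

end spread

end Vale.Agent.P127.TV
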