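import Vale.Agent.P127.TV.Lat
import Vale.Agent.P127.TV.SubC

/-!
# P127 / TV : two short, nearly parallel approximate invariances saturate a block (helper881)

`lat_hc` : if the law of `z` is nearly invariant under `n₁ α₁ (1, g₁) + n₂ α₂ (1, g₂)` for all
`n₁, n₂ < R` (up to rounding `1`), then `H(cell of side l | cell of side L) ≥ 2 log (L / l) - C`.
`lat_step` : the same from the two single steps.
-/

set_option autoImplicit false

namespace Vale.Agent.P127.TV.Lat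

open Finset Vale.Agent.P127 Vale.Agent.P127.Stk

variable {Ω : Type} [Fintype Ω]

theorem log_floor_le {x : ℝ} (hx : 1 ≤ x) : Real.log (⌊x⌋₊ : ℝ) ≤ Real.log x := by
  have h1 : 1 ≤ ⌊x⌋₊ := Nat.le_floor (by exact_mod_cast hx)
  exact Real.log_le_log (by exact_mod_cast h1) (Nat.floor_le (by linarith))

/-- **saturation from the lattice of translations** -/
theorem lat_hc (P : Law Ω) (z : Ω → ℝ × ℝ) (a₁ a₂ g₁ g₂ l L e : ℝ) (R : ℕ)
    (ha₁ : 0 < |a₁|) (ha₂ : 0 < |a₂|) (ha₁' : |a₁| ≤ 1) (ha₂' : |a₂| ≤ 1)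
    (hg : 0 < |g₂ - g₁|) (hg₁ : |g₁| ≤ 1) (hg₂ : |g₂| ≤ 1) (hl : 1 ≤ l) (hlL : l ≤ L)
    (hR1 : L ≤ R * |a₁|) (hR2 : L ≤ R * |a₂|) (hD1 : L ≤ R * |a₁| * |g₂ - g₁|)
    (hD2 : L ≤ R * |a₂| * |g₂ - g₁|)
    (h : ∀ n : ℕ × ℕ, n.1 < R → n.2 < R →
      SubC P P (fun a b => Moved a₁ a₂ g₁ g₂ (z a) n (z b)) e) :
    2 * Real.log (L / l) - Real.log 3168 - e * (1 + 2 * Real.log R) ≤
      hc P (fun ω => cell l (z ω)) (fun ω => cell L (z ω)) := by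
  classical
  have hL0 : 0 < L := by linarith
  have hl0 : 0 < l := by linarith
  have hRpos : 0 < R := by
    rcases Nat.eq_zero_or_pos R with h0 | h0
    · rw [h0] at hR1
      simp at hR1
      linarith
    · exact h0
  have hRr : (0 : ℝ) < R := by exact_mod_cast hRpos
  have : Nonempty (Fin R × Fin R) := ⟨(⟨0, hRpos⟩, ⟨0, hRpos⟩)⟩
  set Dl : ℝ := |g₂ - g₁| with hDl
  set x0 : ℝ := 32 * l ^ 2 / (|a₁| * |a₂| * Dl) with hx0
  set x1 : ℝ := 99 * ((R * |a₁|) * (R * |a₂|) * Dl) / L ^ 2 with hx1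
  have hDle : Dl ≤ 2 := by
    calc Dl ≤ |g₂| + |g₁| := abs_sub _ _
      _ ≤ 2 := by linarith
  have hden : 0 < |a₁| * |a₂| * Dl := by positivity
  have h1x0 : 1 ≤ x0 := by
    rw [hx0, le_div_iff₀ hden]
    have h1 : |a₁| * |a₂| ≤ 1 * 1 := mul_le_mul ha₁' ha₂' ha₂.le zero_le_one
    have h2 : |a₁| * |a₂| * Dl ≤ (1 * 1) * 2 := mul_le_mul h1 hDle hg.le (by norm_num)
    nlinarith
  have h1x1 : 1 ≤ x1 := by
    rw [hx1, le_div_iff₀ (by positivity)]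
    have h2 : L * L ≤ (R * |a₁|) * (R * |a₂| * Dl) := mul_le_mul hR1 hD2 hL0.le (by positivity)
    nlinarith
  have key := spread P (K := Fin R × Fin R)
    (fun k a b => Moved a₁ a₂ g₁ g₂ (z a) ((k.1 : ℕ), (k.2 : ℕ)) (z b)) (fun _ => e)
    (fun k => h _ k.1.2 k.2.2) (fun ω => cell l (z ω)) (fun ω => cell L (z ω)) ⌊x0⌋₊ ⌊x1⌋₊ ?_ ?_
  · have hcard : (Fintype.card (Fin R × Fin R) : ℝ) = (R : ℝ) * R := by simp
    have hsum : (∑ _k : Fin R × Fin R, e) / Fintype.card (Fin R × Fin R) = e := by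
      rw [Finset.sum_const, Finset.card_univ, nsmul_eq_mul, mul_comm, mul_div_assoc, div_self,
        mul_one]
      rw [hcard]
      positivity
    rw [hsum, hcard, Real.log_mul hRr.ne' hRr.ne'] at key
    have e0 := log_floor_le h1x0
    have e1 := log_floor_le h1x1
    have e2 : Real.log x0 + Real.log x1 =
        Real.log 3168 + (Real.log R + Real.log R) - 2 * Real.log (L / l) := by
      have hne : (L / l) ≠ 0 := by positivity
      have e3 : x0 * x1 = 3168 * (R * R) / (L / l) ^ 2 := by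
        rw [hx0, hx1]
        field_simp
        ring
      rw [← Real.log_mul (by positivity) (by positivity), e3,
        Real.log_div (by positivity) (by positivity), Real.log_mul (by norm_num) (by positivity),
        Real.log_mul hRr.ne' hRr.ne', Real.log_pow]
      push_cast
      ring
    linarith
  · intro a b _ _
    refine ⟨univ.filter fun k : Fin R × Fin R => ∃ b', Moved a₁ a₂ g₁ g₂ (z a)
      ((k.1 : ℕ), (k.2 : ℕ)) (z b') ∧ cell l (z b') = cell l (z b), ?_, ?_⟩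
    · refine Nat.le_floor ?_
      set S : Finset (Fin R × Fin R) := univ.filter fun k : Fin R × Fin R =>
        ∃ b', Moved a₁ a₂ g₁ g₂ (z a) ((k.1 : ℕ), (k.2 : ℕ)) (z b') ∧
          cell l (z b') = cell l (z b) with hS
      have hinj : Function.Injective (fun k : Fin R × Fin R => ((k.1 : ℕ), (k.2 : ℕ))) := by
        intro k k' hk
        simp only [Prod.mk.injEq] at hk
        exact Prod.ext (Fin.ext hk.1) (Fin.ext hk.2)
      have hc : (S.card : ℝ) = ((S.image fun k : Fin R × Fin R =>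
          ((k.1 : ℕ), (k.2 : ℕ))).card : ℝ) := by
        rw [Finset.card_image_of_injective _ hinj]
      rw [hc]
      refine fib_le _ a₁ a₂ g₁ g₂ l (z a) (cell l (z b)) ha₁ ha₂ ha₁' ha₂' hg hg₁ hg₂ hl ?_
      intro n hn
      rw [Finset.mem_image] at hn
      obtain ⟨k, hk, rfl⟩ := hn
      rw [hS, Finset.mem_filter] at hk
      obtain ⟨b', h1, h2⟩ := hk.2
      exact ⟨z b', h1, h2⟩
    · intro k b' _ hk hf
      rw [Finset.mem_filter]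
      exact ⟨Finset.mem_univ _, b', hk, hf⟩
  · intro a _
    refine ⟨(univ.filter fun b : Ω => ∃ k : Fin R × Fin R, Moved a₁ a₂ g₁ g₂ (z a)
      ((k.1 : ℕ), (k.2 : ℕ)) (z b)).image fun b => cell L (z b), ?_, ?_⟩
    · refine Nat.le_floor ?_
      refine crs_le _ a₁ a₂ g₁ g₂ L (R * |a₁|) (R * |a₂|) (z a) hg₁ hg₂ (hl.trans hlL) hR1 hR2
        hD1 hD2 ?_
      intro q hq
      rw [Finset.mem_image] at hq
      obtain ⟨b, hb, rfl⟩ := hq
      rw [Finset.mem_filter] at hb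
      obtain ⟨k, hk⟩ := hb.2
      refine ⟨((k.1 : ℕ), (k.2 : ℕ)), z b, ?_, ?_, hk, rfl⟩
      · have : ((k.1 : ℕ) : ℝ) ≤ R := by exact_mod_cast k.1.2.le
        exact mul_le_mul_of_nonneg_right this ha₁.le
      · have : ((k.2 : ℕ) : ℝ) ≤ R := by exact_mod_cast k.2.2.le
        exact mul_le_mul_of_nonneg_right this ha₂.le
    · intro k b _ hk
      rw [Finset.mem_image]
      exact ⟨b, by rw [Finset.mem_filter]; exact ⟨Finset.mem_univ _, k, hk⟩, rfl⟩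

/-- one step -/
def Step (a g ρ : ℝ) (z z' : ℝ × ℝ) : Prop :=
  |z'.1 - (z.1 + a)| ≤ ρ ∧ |z'.2 - (z.2 + a * g)| ≤ ρ

/-- `n` steps -/
def StepN (a g ρ : ℝ) (n : ℕ) (z z' : ℝ × ℝ) : Prop :=
  |z'.1 - (z.1 + n * a)| ≤ n * ρ ∧ |z'.2 - (z.2 + n * a * g)| ≤ n * ρ

theorem StepN.succ {a g ρ : ℝ} {n : ℕ} {x y w : ℝ × ℝ} (h : StepN a g ρ n x y)
    (h' : Step a g ρ y w) : StepN a g ρ (n + 1) x w := by
  obtain ⟨h1, h2⟩ := h
  obtain ⟨h3, h4⟩ := h'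
  unfold StepN
  rw [abs_le] at h1 h2 h3 h4 ⊢
  rw [abs_le]
  push_cast
  refine ⟨⟨?_, ?_⟩, ?_, ?_⟩ <;> nlinarith [h1.1, h1.2, h2.1, h2.2, h3.1, h3.2, h4.1, h4.2]

/-- **saturation from two single steps** -/
theorem lat_step (P : Law Ω) (z : Ω → ℝ × ℝ) (a₁ a₂ g₁ g₂ l L ρ e₁ e₂ : ℝ) (R : ℕ)
    (ha₁ : 0 < |a₁|) (ha₂ : 0 < |a₂|) (ha₁' : |a₁| ≤ 1) (ha₂' : |a₂| ≤ 1)
    (hg : 0 < |g₂ - g₁|) (hg₁ : |g₁| ≤ 1) (hg₂ : |g₂| ≤ 1) (hl : 1 ≤ l) (hlL : l ≤ L)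
    (hR1 : L ≤ R * |a₁|) (hR2 : L ≤ R * |a₂|) (hD1 : L ≤ R * |a₁| * |g₂ - g₁|)
    (hD2 : L ≤ R * |a₂| * |g₂ - g₁|) (hρ : 0 ≤ ρ) (hRρ : 2 * R * ρ ≤ 1)
    (he₁ : 0 ≤ e₁) (he₂ : 0 ≤ e₂)
    (h₁ : SubC P P (fun a b => Step a₁ g₁ ρ (z a) (z b)) e₁)
    (h₂ : SubC P P (fun a b => Step a₂ g₂ ρ (z a) (z b)) e₂) :
    2 * Real.log (L / l) - Real.log 3168 - R * (e₁ + e₂) * (1 + 2 * Real.log R) ≤
      hc P (fun ω => cell l (z ω)) (fun ω => cell L (z ω)) := by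
  refine lat_hc P z a₁ a₂ g₁ g₂ l L (R * (e₁ + e₂)) R ha₁ ha₂ ha₁' ha₂' hg hg₁ hg₂ hl hlL hR1 hR2
    hD1 hD2 ?_
  intro n hn1 hn2
  have i1 := h₁.iter (fun k a b => StepN a₁ g₁ ρ k (z a) (z b))
    (fun a => by simp [StepN]) (fun k a b c h h' => h.succ h') n.1
  have i2 := h₂.iter (fun k a b => StepN a₂ g₂ ρ k (z a) (z b))
    (fun a => by simp [StepN]) (fun k a b c h h' => h.succ h') n.2
  have hn1' : (n.1 : ℝ) ≤ R := by exact_mod_cast hn1.le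
  have hn2' : (n.2 : ℝ) ≤ R := by exact_mod_cast hn2.le
  refine (i1.comp i2).mono ?_ ?_
  · rintro a c ⟨b, ⟨h1, h2⟩, h3, h4⟩
    have hb1 : (n.1 : ℝ) * ρ ≤ R * ρ := mul_le_mul_of_nonneg_right hn1' hρ
    have hb2 : (n.2 : ℝ) * ρ ≤ R * ρ := mul_le_mul_of_nonneg_right hn2' hρ
    unfold Moved
    rw [abs_le] at h1 h2 h3 h4 ⊢
    rw [abs_le]
    refine ⟨⟨?_, ?_⟩, ?_, ?_⟩ <;> linarith [h1.1, h1.2, h2.1, h2.2, h3.1, h3.2, h4.1, h4.2]
  · have := mul_le_mul_of_nonneg_right hn1' he₁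
    have := mul_le_mul_of_nonneg_right hn2' he₂
    linarith

end Vale.Agent.P127.TV.Lat
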