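import Vale.Agent.P127.TV.MStep
import Vale.Agent.P127.TV.LatHc

/-!
# P127 / TV : the M-step with a change of variables, and with the lattice

`mstepB`: as `mstep`, but the window vector at the time `θ₂` is first transformed by a map
`β d θ₁ θ₂` (known given the past and the two times).
`mstep_lat`: two coordinates, square cells, non-degeneracy at the scale `τ`.
-/

namespace Vale.Agent.P127.TV

open Finset Vale.Agent.P127 Vale.Agent.P127.Stk Vale.Agent.P127.U.Pin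

variable {Ω : Type} [Fintype Ω] {ι : Type*} {S T U V F G Z : Type*}

/-- **THE M-STEP**, with a change of variables `β` of the window at the second time, and a
projection `π` of the window at the first time -/
theorem mstepB (P : Law Ω) (D : Ω → U) (Θ : Ω → V) (W : Ω → S) (e : U → S → ℝ)
    (A : U → V → S → Z) (π : U → V → Z → ι → ℝ) (β : U → V → V → Z → ι → ℝ)
    (g h : U → V → V → ι → ℝ) (c : ι → ℝ)
    (hA : ∀ d θ₁ θ₂ w i,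
      |β d θ₁ θ₂ (A d θ₂ w) i - π d θ₁ (A d θ₁ w) i - (e d w * g d θ₁ θ₂ i + h d θ₁ θ₂ i)| ≤ c i)
    (χ : U → V → V → V → ℝ → ℝ → ℝ) (hχ0 : ∀ d θ θ₂ θ₃ x x', 0 ≤ χ d θ θ₂ θ₃ x x')
    (hχ1 : ∀ d θ θ₂ θ₃ x x', χ d θ θ₂ θ₃ x x' ≤ 1)
    (fine : U → V → (ι → ℝ) → F) (coarse : U → V → (ι → ℝ) → G) (Φ N : ℝ) (hN : 0 ≤ N)
    (hsat : ∀ d θ θ₂ θ₃ x x', 0 < χ d θ θ₂ θ₃ x x' → ∀ (Q : Law Ω) (X : Ω → ι → ℝ) (ε₁ ε₂ : ℝ),
      Tr Q X (fun i => (x - x') * g d θ θ₂ i) (fun i => 2 * c i) ε₁ →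
      Tr Q X (fun i => (x - x') * g d θ θ₃ i) (fun i => 2 * c i) ε₂ →
      Φ - N * (ε₁ + ε₂) ≤ hc Q (fun ω => fine d θ (X ω)) (fun ω => coarse d θ (X ω))) :
    P.ex (fun ω => (P.cond D (D ω)).ex (fun ω₂ => (P.cond D (D ω)).ex (fun ω₃ =>
      (P.cond D (D ω)).ex (fun ω₄ => (P.cond D (D ω)).ex (fun ω₅ =>
        χ (D ω) (Θ ω) (Θ ω₂) (Θ ω₃) (e (D ω) (W ω₄)) (e (D ω) (W ω₅))))))) * Φ -
      N * (16 * Real.sqrt (mi P (fun ω => e (D ω) (W ω)) (fun ω => A (D ω) (Θ ω) (W ω))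
        (fun ω => (D ω, Θ ω))) + 56 * Real.sqrt (mi P Θ W D)) ≤
    hc P (fun ω => fine (D ω) (Θ ω) (π (D ω) (Θ ω) (A (D ω) (Θ ω) (W ω))))
      (fun ω => (coarse (D ω) (Θ ω) (π (D ω) (Θ ω) (A (D ω) (Θ ω) (W ω))), (D ω, Θ ω))) := by
  classical
  -- abbreviations
  set I1 : ℝ := Real.sqrt (mi P (fun ω => e (D ω) (W ω)) (fun ω => A (D ω) (Θ ω) (W ω))
        (fun ω => (D ω, Θ ω))) with hI1
  set I2 : ℝ := Real.sqrt (mi P Θ W D) with hI2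
  let J : Ω → Ω → ℝ := fun ω ω₂ => il (P.cond D (D ω)) (fun ω' => e (D ω) (W ω'))
      (fun ω' => A (D ω) (Θ ω₂) (W ω'))
  let K : Ω → ℝ := fun ω => dl (P.cond (fun ω => (D ω, Θ ω)) (D ω, Θ ω)) W (P.cond D (D ω)) W
  have hJ1 : P.ex (fun ω => J ω ω) ≤ 4 * I1 + 12 * I2 := one_theta P D Θ W e A
  have hJ2 : P.ex (fun ω => (P.cond D (D ω)).ex (fun ω₂ => J ω ω₂)) = P.ex (fun ω => J ω ω) := by
    rw [← ex_cond P D (fun ω => J ω ω)]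
    refine P.ex_congr fun ω hω => Law.ex_congr _ fun ω₂ h₂ => ?_
    have : D ω₂ = D ω := (cond_supp P D (P.pr_pos D hω) h₂).1
    simp only [J]
    rw [this]
  have hK : P.ex K ≤ 4 * I2 := pin_dl P Θ W D
  -- the pointwise inequality
  have key : ∀ ω, 0 < P.w ω →
      (P.cond D (D ω)).ex (fun ω₂ => (P.cond D (D ω)).ex (fun ω₃ =>
      (P.cond D (D ω)).ex (fun ω₄ => (P.cond D (D ω)).ex (fun ω₅ =>
        χ (D ω) (Θ ω) (Θ ω₂) (Θ ω₃) (e (D ω) (W ω₄)) (e (D ω) (W ω₅)))))) * Φ -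
      N * ((2 * J ω ω + (P.cond D (D ω)).ex (fun ω₂ => J ω ω₂) +
        (P.cond D (D ω)).ex (fun ω₃ => J ω ω₃)) + 2 * K ω) ≤
      hc (P.cond (fun ω => (D ω, Θ ω)) (D ω, Θ ω))
        (fun ω => fine (D ω) (Θ ω) (π (D ω) (Θ ω) (A (D ω) (Θ ω) (W ω))))
        (fun ω => coarse (D ω) (Θ ω) (π (D ω) (Θ ω) (A (D ω) (Θ ω) (W ω)))) := by
    intro ω hω
    set R := P.cond D (D ω) with hR
    set Q := P.cond (fun ω => (D ω, Θ ω)) (D ω, Θ ω) with hQ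
    have hQs : ∀ ω', 0 < Q.w ω' → D ω' = D ω ∧ Θ ω' = Θ ω := fun ω' h' =>
      Prod.mk.inj (cond_supp P (fun ω => (D ω, Θ ω)) (P.pr_pos (fun ω => (D ω, Θ ω)) hω) h').1
    have hhc : hc Q (fun ω => fine (D ω) (Θ ω) (π (D ω) (Θ ω) (A (D ω) (Θ ω) (W ω))))
        (fun ω => coarse (D ω) (Θ ω) (π (D ω) (Θ ω) (A (D ω) (Θ ω) (W ω)))) =
        hc Q (fun ω' => fine (D ω) (Θ ω) (π (D ω) (Θ ω) (A (D ω) (Θ ω) (W ω'))))
        (fun ω' => coarse (D ω) (Θ ω) (π (D ω) (Θ ω) (A (D ω) (Θ ω) (W ω')))) := by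
      refine hc_congr_supp (fun ω' h' => ?_) fun ω' h' => ?_
      · rw [(hQs ω' h').1, (hQs ω' h').2]
      · rw [(hQs ω' h').1, (hQs ω' h').2]
    rw [hhc]
    set H := hc Q (fun ω' => fine (D ω) (Θ ω) (π (D ω) (Θ ω) (A (D ω) (Θ ω) (W ω'))))
        (fun ω' => coarse (D ω) (Θ ω) (π (D ω) (Θ ω) (A (D ω) (Θ ω) (W ω')))) with hH
    have hH0 : 0 ≤ H := hc_nonneg _ _ _
    -- the error of one translation
    let er : Ω → Ω → Ω → ℝ := fun ω₂ ω₄ ω₅ =>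
      (dl (R.cond (fun ω' => e (D ω) (W ω')) (e (D ω) (W ω₄)))
          (fun ω' => A (D ω) (Θ ω) (W ω')) R (fun ω' => A (D ω) (Θ ω) (W ω')) +
        dl (R.cond (fun ω' => e (D ω) (W ω')) (e (D ω) (W ω₄)))
          (fun ω' => A (D ω) (Θ ω₂) (W ω'))
          (R.cond (fun ω' => e (D ω) (W ω')) (e (D ω) (W ω₅)))
          (fun ω' => A (D ω) (Θ ω₂) (W ω')) +
        dl (R.cond (fun ω' => e (D ω) (W ω')) (e (D ω) (W ω₅)))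
          (fun ω' => A (D ω) (Θ ω) (W ω')) R (fun ω' => A (D ω) (Θ ω) (W ω'))) / 2
    have her0 : ∀ ω₂ ω₄ ω₅, 0 ≤ er ω₂ ω₄ ω₅ := fun ω₂ ω₄ ω₅ =>
      div_nonneg (add_nonneg (add_nonneg (dl_nonneg _ _ _ _) (dl_nonneg _ _ _ _))
        (dl_nonneg _ _ _ _)) (by norm_num)
    have hK0 : 0 ≤ K ω := dl_nonneg _ _ _ _
    have htr : ∀ ω₂ ω₄ ω₅, 0 < R.w ω₄ → 0 < R.w ω₅ →
        Tr Q (fun ω' => π (D ω) (Θ ω) (A (D ω) (Θ ω) (W ω')))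
          (fun i => (e (D ω) (W ω₄) - e (D ω) (W ω₅)) * g (D ω) (Θ ω) (Θ ω₂) i)
          (fun i => 2 * c i) (er ω₂ ω₄ ω₅ + K ω) := by
      intro ω₂ ω₄ ω₅ h4 h5
      have h6 := Tr.two_ind R (fun ω' => e (D ω) (W ω'))
        (fun ω' => π (D ω) (Θ ω) (A (D ω) (Θ ω) (W ω')))
        (fun ω' => β (D ω) (Θ ω) (Θ ω₂) (A (D ω) (Θ ω₂) (W ω')))
        (fun x i => x * g (D ω) (Θ ω) (Θ ω₂) i + h (D ω) (Θ ω) (Θ ω₂) i) c
        (fun ω' _ i => hA _ _ _ _ i) (R.pr_pos (fun ω' => e (D ω) (W ω')) h4)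
        (R.pr_pos (fun ω' => e (D ω) (W ω')) h5)
      have m1 := dl_map (R.cond (fun ω' => e (D ω) (W ω')) (e (D ω) (W ω₄)))
        (fun ω' => A (D ω) (Θ ω) (W ω')) R (fun ω' => A (D ω) (Θ ω) (W ω')) (π (D ω) (Θ ω))
      have m2 := dl_map (R.cond (fun ω' => e (D ω) (W ω')) (e (D ω) (W ω₄)))
        (fun ω' => A (D ω) (Θ ω₂) (W ω'))
        (R.cond (fun ω' => e (D ω) (W ω')) (e (D ω) (W ω₅)))
        (fun ω' => A (D ω) (Θ ω₂) (W ω')) (β (D ω) (Θ ω) (Θ ω₂))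
      have m3 := dl_map (R.cond (fun ω' => e (D ω) (W ω')) (e (D ω) (W ω₅)))
        (fun ω' => A (D ω) (Θ ω) (W ω')) R (fun ω' => A (D ω) (Θ ω) (W ω')) (π (D ω) (Θ ω))
      have h7 := Tr.change (P := R) (Q := Q) W (fun w => π (D ω) (Θ ω) (A (D ω) (Θ ω) w)) h6
      refine (h7.congr fun i => ?_).mono (fun i => le_rfl) ?_
      · ring
      · simp only [er]
        have hKe : dl Q W R W = K ω := rfl
        rw [hKe]
        linarith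
    have hpt : ∀ ω₂ ω₃ ω₄ ω₅, 0 < R.w ω₄ → 0 < R.w ω₅ →
        χ (D ω) (Θ ω) (Θ ω₂) (Θ ω₃) (e (D ω) (W ω₄)) (e (D ω) (W ω₅)) * Φ -
          N * ((er ω₂ ω₄ ω₅ + er ω₃ ω₄ ω₅) + 2 * K ω) ≤
        χ (D ω) (Θ ω) (Θ ω₂) (Θ ω₃) (e (D ω) (W ω₄)) (e (D ω) (W ω₅)) * H := by
      intro ω₂ ω₃ ω₄ ω₅ h4 h5
      set x := χ (D ω) (Θ ω) (Θ ω₂) (Θ ω₃) (e (D ω) (W ω₄)) (e (D ω) (W ω₅)) with hx
      have hx0 : 0 ≤ x := hχ0 _ _ _ _ _ _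
      have hx1 : x ≤ 1 := hχ1 _ _ _ _ _ _
      have hE0 : 0 ≤ N * ((er ω₂ ω₄ ω₅ + er ω₃ ω₄ ω₅) + 2 * K ω) :=
        mul_nonneg hN (by linarith [her0 ω₂ ω₄ ω₅, her0 ω₃ ω₄ ω₅])
      rcases hx0.eq_or_lt with h0 | h0
      · rw [← h0]
        linarith
      · have h8 := hsat _ _ _ _ _ _ h0 Q (fun ω' => π (D ω) (Θ ω) (A (D ω) (Θ ω) (W ω'))) _ _
          (htr ω₂ ω₄ ω₅ h4 h5) (htr ω₃ ω₄ ω₅ h4 h5)
        have h9 := mul_le_mul_of_nonneg_left h8 hx0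
        have h10 : x * (N * ((er ω₂ ω₄ ω₅ + er ω₃ ω₄ ω₅) + 2 * K ω)) ≤
            N * ((er ω₂ ω₄ ω₅ + er ω₃ ω₄ ω₅) + 2 * K ω) := mul_le_of_le_one_left hE0 hx1
        have h11 : x * (Φ - N * (er ω₂ ω₄ ω₅ + K ω + (er ω₃ ω₄ ω₅ + K ω))) =
            x * Φ - x * (N * ((er ω₂ ω₄ ω₅ + er ω₃ ω₄ ω₅) + 2 * K ω)) := by ring
        rw [h11] at h9
        linarith
    -- average over the four copies
    let X4 : Ω → Ω → Ω → Ω → ℝ := fun ω₂ ω₃ ω₄ ω₅ =>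
      χ (D ω) (Θ ω) (Θ ω₂) (Θ ω₃) (e (D ω) (W ω₄)) (e (D ω) (W ω₅))
    let av : (Ω → Ω → Ω → Ω → ℝ) → ℝ := fun f =>
      R.ex (fun ω₂ => R.ex (fun ω₃ => R.ex (fun ω₄ => R.ex (fun ω₅ => f ω₂ ω₃ ω₄ ω₅))))
    have av_mono : ∀ f f' : Ω → Ω → Ω → Ω → ℝ, (∀ ω₂ ω₃ ω₄ ω₅, 0 < R.w ω₄ → 0 < R.w ω₅ →
        f ω₂ ω₃ ω₄ ω₅ ≤ f' ω₂ ω₃ ω₄ ω₅) → av f ≤ av f' := fun f f' hff =>
      R.ex_mono fun ω₂ _ => R.ex_mono fun ω₃ _ => R.ex_mono fun ω₄ h4 => R.ex_mono fun ω₅ h5 =>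
        hff ω₂ ω₃ ω₄ ω₅ h4 h5
    have e1 : av (fun ω₂ ω₃ ω₄ ω₅ => X4 ω₂ ω₃ ω₄ ω₅ * Φ -
        N * ((er ω₂ ω₄ ω₅ + er ω₃ ω₄ ω₅) + 2 * K ω)) ≤
        av (fun ω₂ ω₃ ω₄ ω₅ => X4 ω₂ ω₃ ω₄ ω₅ * H) := av_mono _ _ hpt
    have e2 : av (fun ω₂ ω₃ ω₄ ω₅ => X4 ω₂ ω₃ ω₄ ω₅ * H) ≤ H := by
      have : av (fun ω₂ ω₃ ω₄ ω₅ => X4 ω₂ ω₃ ω₄ ω₅ * H) ≤ av (fun _ _ _ _ => H) :=
        av_mono _ _ fun ω₂ ω₃ ω₄ ω₅ _ _ => mul_le_of_le_one_left hH0 (hχ1 _ _ _ _ _ _)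
      refine this.trans (le_of_eq ?_)
      simp only [av, R.ex_const]
    have e3 : av (fun ω₂ ω₃ ω₄ ω₅ => X4 ω₂ ω₃ ω₄ ω₅ * Φ -
        N * ((er ω₂ ω₄ ω₅ + er ω₃ ω₄ ω₅) + 2 * K ω)) =
        av X4 * Φ - N * ((R.ex (fun ω₂ => R.ex (fun ω₄ => R.ex (fun ω₅ => er ω₂ ω₄ ω₅))) +
          R.ex (fun ω₃ => R.ex (fun ω₄ => R.ex (fun ω₅ => er ω₃ ω₄ ω₅)))) + 2 * K ω) := by
      simp only [av]
      simp only [R.ex_sub, R.ex_const_mul, R.ex_add, R.ex_const]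
      congr 1
      simp only [mul_comm _ Φ, R.ex_const_mul]
    have e4 : R.ex (fun ω₂ => R.ex (fun ω₄ => R.ex (fun ω₅ => er ω₂ ω₄ ω₅))) ≤
        J ω ω + R.ex (fun ω₂ => J ω ω₂) := by
      have : R.ex (fun ω₂ => R.ex (fun ω₄ => R.ex (fun ω₅ => er ω₂ ω₄ ω₅))) ≤
          R.ex (fun ω₂ => J ω ω + J ω ω₂) := by
        refine R.ex_mono fun ω₂ _ => ?_
        exact two_ind_err R (fun ω' => e (D ω) (W ω')) (fun ω' => A (D ω) (Θ ω) (W ω'))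
          (fun ω' => A (D ω) (Θ ω₂) (W ω'))
      rwa [R.ex_add, R.ex_const] at this
    rw [e3] at e1
    have e5 : N * ((R.ex (fun ω₂ => R.ex (fun ω₄ => R.ex (fun ω₅ => er ω₂ ω₄ ω₅))) +
          R.ex (fun ω₃ => R.ex (fun ω₄ => R.ex (fun ω₅ => er ω₃ ω₄ ω₅)))) + 2 * K ω) ≤
        N * ((2 * J ω ω + R.ex (fun ω₂ => J ω ω₂) + R.ex (fun ω₃ => J ω ω₃)) + 2 * K ω) :=
      mul_le_mul_of_nonneg_left (by linarith) hN
    have e6 : av X4 * Φ - N * ((2 * J ω ω + R.ex (fun ω₂ => J ω ω₂) +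
        R.ex (fun ω₃ => J ω ω₃)) + 2 * K ω) ≤ H := by linarith
    exact e6
  -- average over the past
  rw [hc_cond_ex P _ _ (fun ω => (D ω, Θ ω))]
  have hfin := P.ex_mono key
  refine le_trans ?_ hfin
  rw [P.ex_sub, P.ex_const_mul, P.ex_add, P.ex_const_mul, P.ex_add, P.ex_add, P.ex_const_mul, hJ2]
  have e7 : N * ((2 * P.ex (fun ω => J ω ω) + P.ex (fun ω => J ω ω) + P.ex (fun ω => J ω ω)) +
      2 * P.ex (fun ω => K ω)) ≤ N * (16 * I1 + 56 * I2) := by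
    refine mul_le_mul_of_nonneg_left ?_ hN
    have : P.ex (fun ω => K ω) ≤ 4 * I2 := hK
    linarith
  have e8 : P.ex (fun ω => (P.cond D (D ω)).ex (fun ω₂ => (P.cond D (D ω)).ex (fun ω₃ =>
      (P.cond D (D ω)).ex (fun ω₄ => (P.cond D (D ω)).ex (fun ω₅ =>
        χ (D ω) (Θ ω) (Θ ω₂) (Θ ω₃) (e (D ω) (W ω₄)) (e (D ω) (W ω₅)))))) * Φ) =
      P.ex (fun ω => (P.cond D (D ω)).ex (fun ω₂ => (P.cond D (D ω)).ex (fun ω₃ =>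
      (P.cond D (D ω)).ex (fun ω₄ => (P.cond D (D ω)).ex (fun ω₅ =>
        χ (D ω) (Θ ω) (Θ ω₂) (Θ ω₃) (e (D ω) (W ω₄)) (e (D ω) (W ω₅))))))) * Φ := by
    simp only [mul_comm _ Φ, P.ex_const_mul]
  rw [e8]
  linarith


open Classical in
/-- the non-degeneracy weight: `a_k = (x - x') s(θ, θ_k)` between `τ` and `1`, slopes
`G(θ, θ_k)` at most `1` and `τ`-separated -/
noncomputable def chiL (s Gs : U → V → V → ℝ) (τ : ℝ) (d : U) (θ θ₂ θ₃ : V) (x x' : ℝ) : ℝ :=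
  if τ ≤ |(x - x') * s d θ θ₂| ∧ |(x - x') * s d θ θ₂| ≤ 1 ∧ τ ≤ |(x - x') * s d θ θ₃| ∧
    |(x - x') * s d θ θ₃| ≤ 1 ∧ τ ≤ |Gs d θ θ₃ - Gs d θ θ₂| ∧ |Gs d θ θ₂| ≤ 1 ∧ |Gs d θ θ₃| ≤ 1
  then 1 else 0

/-- **M-STEP + LATTICE** : `z = (π 0, π 1)` in the units of the shifts, square cells of sides
`l ≤ L`, rounding `ρ` with `4 R ρ ≤ 1`, `L ≤ R τ²` -/
theorem mstep_lat (P : Law Ω) (D : Ω → U) (Θ : Ω → V) (W : Ω → S) (e : U → S → ℝ)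
    (A : U → V → S → Z) (π : U → V → Z → Fin 2 → ℝ) (β : U → V → V → Z → Fin 2 → ℝ)
    (s Gs : U → V → V → ℝ) (h : U → V → V → Fin 2 → ℝ) (ρ : ℝ)
    (hA0 : ∀ d θ₁ θ₂ w,
      |β d θ₁ θ₂ (A d θ₂ w) 0 - π d θ₁ (A d θ₁ w) 0 - (e d w * s d θ₁ θ₂ + h d θ₁ θ₂ 0)| ≤ ρ)
    (hA1 : ∀ d θ₁ θ₂ w,
      |β d θ₁ θ₂ (A d θ₂ w) 1 - π d θ₁ (A d θ₁ w) 1 -
        (e d w * (s d θ₁ θ₂ * Gs d θ₁ θ₂) + h d θ₁ θ₂ 1)| ≤ ρ)
    (τ l L : ℝ) (R : ℕ) (hτ : 0 < τ) (hτ1 : τ ≤ 1) (hl : 1 ≤ l) (hlL : l ≤ L)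
    (hR : L ≤ R * τ ^ 2) (hρ : 4 * R * ρ ≤ 1) :
    P.ex (fun ω => (P.cond D (D ω)).ex (fun ω₂ => (P.cond D (D ω)).ex (fun ω₃ =>
      (P.cond D (D ω)).ex (fun ω₄ => (P.cond D (D ω)).ex (fun ω₅ =>
        chiL s Gs τ (D ω) (Θ ω) (Θ ω₂) (Θ ω₃) (e (D ω) (W ω₄)) (e (D ω) (W ω₅))))))) *
        (2 * Real.log (L / l) - Real.log 3168) -
      R * (1 + 2 * Real.log R) *
        (16 * Real.sqrt (mi P (fun ω => e (D ω) (W ω)) (fun ω => A (D ω) (Θ ω) (W ω))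
        (fun ω => (D ω, Θ ω))) + 56 * Real.sqrt (mi P Θ W D)) ≤
    hc P (fun ω => Lat.cell l (π (D ω) (Θ ω) (A (D ω) (Θ ω) (W ω)) 0,
        π (D ω) (Θ ω) (A (D ω) (Θ ω) (W ω)) 1))
      (fun ω => (Lat.cell L (π (D ω) (Θ ω) (A (D ω) (Θ ω) (W ω)) 0,
        π (D ω) (Θ ω) (A (D ω) (Θ ω) (W ω)) 1), (D ω, Θ ω))) := by
  classical
  have hL1 : 1 ≤ L := hl.trans hlL
  have hR0 : (0 : ℝ) < R := by
    by_contra hcon
    have : (R : ℝ) * τ ^ 2 ≤ 0 := mul_nonpos_of_nonpos_of_nonneg (not_lt.1 hcon) (by positivity)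
    linarith
  have hR1 : (1 : ℝ) ≤ R := by
    have : 0 < R := by exact_mod_cast hR0
    exact_mod_cast this
  have hlogR : 0 ≤ Real.log R := Real.log_nonneg hR1
  refine mstepB P D Θ W e A π β (fun d θ₁ θ₂ i => if i = 0 then s d θ₁ θ₂ else
      s d θ₁ θ₂ * Gs d θ₁ θ₂) h (fun _ => ρ) ?_ (chiL s Gs τ) ?_ ?_
    (fun _ _ x => Lat.cell l (x 0, x 1)) (fun _ _ x => Lat.cell L (x 0, x 1))
    (2 * Real.log (L / l) - Real.log 3168) (R * (1 + 2 * Real.log R)) (by positivity) ?_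
  · intro d θ₁ θ₂ w i
    fin_cases i
    · simpa using hA0 d θ₁ θ₂ w
    · simpa using hA1 d θ₁ θ₂ w
  · intro d θ θ₂ θ₃ x x'
    unfold chiL
    split_ifs
    · exact zero_le_one
    · exact le_rfl
  · intro d θ θ₂ θ₃ x x'
    unfold chiL
    split_ifs
    · exact le_rfl
    · exact zero_le_one
  · intro d θ θ₂ θ₃ x x' hχ Q X ε₁ ε₂ t₁ t₂
    unfold chiL at hχ
    split_ifs at hχ with hc
    swap
    · exact absurd hχ (lt_irrefl _)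
    obtain ⟨c1, c2, c3, c4, c5, c6, c7⟩ := hc
    have hρ0 : 0 ≤ ρ := by
      -- otherwise the hypothesis `hA0` is contradictory
      have hne : Nonempty Ω := by
        by_contra hcon
        rw [not_nonempty_iff] at hcon
        have := P.sum_one
        simp at this
      exact (abs_nonneg _).trans (hA0 d θ θ₂ (W hne.some))
    have hRτ : (R : ℝ) * τ ^ 2 ≤ R * τ := by
      refine mul_le_mul_of_nonneg_left ?_ hR0.le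
      nlinarith
    have q1 : L ≤ R * |(x - x') * s d θ θ₂| := by
      have := mul_le_mul_of_nonneg_left c1 hR0.le
      linarith
    have q2 : L ≤ R * |(x - x') * s d θ θ₃| := by
      have := mul_le_mul_of_nonneg_left c3 hR0.le
      linarith
    have q3 : ∀ y, τ ≤ |y| → L ≤ R * |y| * |Gs d θ θ₃ - Gs d θ θ₂| := by
      intro y hy
      refine hR.trans ?_
      rw [pow_two, mul_assoc]
      refine mul_le_mul_of_nonneg_left ?_ hR0.le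
      exact mul_le_mul hy c5 hτ.le (abs_nonneg _)
    have hst : ∀ (y gg : ℝ) (ε : ℝ), Tr Q X (fun i => (x - x') * (if i = 0 then y else y * gg))
        (fun _ => 2 * ρ) ε →
        SubC Q Q (fun a b => Lat.Step ((x - x') * y) gg (2 * ρ) (X a 0, X a 1) (X b 0, X b 1)) ε := by
      intro y gg ε ht
      refine SubC.mono ht (fun a b hab => ?_) le_rfl
      have k0 := hab 0
      have k1 := hab 1
      simp only [if_true, if_neg (one_ne_zero : (1 : Fin 2) ≠ 0)] at k0 k1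
      constructor
      · dsimp only
        rw [show X b 0 - (X a 0 + (x - x') * y) = X b 0 - X a 0 - (x - x') * y by ring]
        exact k0
      · dsimp only
        rw [show X b 1 - (X a 1 + (x - x') * y * gg) = X b 1 - X a 1 - (x - x') * (y * gg) by ring]
        exact k1
    have h1 := hst _ _ _ t₁
    have h2 := hst _ _ _ t₂
    have := Lat.lat_step Q (fun ω => (X ω 0, X ω 1)) ((x - x') * s d θ θ₂) ((x - x') * s d θ θ₃)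
      (Gs d θ θ₂) (Gs d θ θ₃) l L (2 * ρ) ε₁ ε₂ R (hτ.trans_le c1) (hτ.trans_le c3) c2 c4
      (hτ.trans_le c5) c6 c7 hl hlL q1 q2 (q3 _ c1) (q3 _ c3) (by linarith) (by linarith)
      (SubC.eps_nonneg h1) (SubC.eps_nonneg h2) h1 h2
    refine le_trans (le_of_eq ?_) this
    ring

end Vale.Agent.P127.TV
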