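import Vale.Agent.P127.TV.Shift

/-!
# P127 / TV : the M-step

From the two averaged independences (the digits `E` of the direction are nearly independent of the
position window at the time `Θ` given the past and `Θ`; the line window `W` is nearly independent
of `Θ` given the past) to a lower bound for the conditional entropy of the fine digits of the
position given the coarse ones, the past and `Θ`. The two-dimensional lattice statement enters as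
the hypothesis `hsat` (two approximate translations of the law of a vector).
-/

namespace Vale.Agent.P127.TV

open Finset Vale.Agent.P127 Vale.Agent.P127.Stk Vale.Agent.P127.U.Pin

variable {Ω : Type} [Fintype Ω] {ι : Type*} {S T U V F G : Type*}

/-- the conditional entropy as an average over a part of the condition -/
theorem hc_cond_ex (P : Law Ω) (X : Ω → S) (Y : Ω → T) (Z : Ω → U) :
    hc P X (fun ω => (Y ω, Z ω)) = P.ex (fun ω => hc (P.cond Z (Z ω)) X Y) := by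
  have h1 := P.H_cond_eq (fun ω => (X ω, Y ω)) Z
  have h2 := P.H_cond_eq Y Z
  have h3 : P.H (fun ω => (X ω, Y ω, Z ω)) = P.H (fun ω => ((X ω, Y ω), Z ω)) := by
    refine P.H_congr fun ω ω' => ?_
    simp only [Prod.mk.injEq]
    tauto
  rw [P.ex_comp Z (fun z => hc (P.cond Z z) X Y)]
  unfold hc
  rw [h3]
  have h4 : ∑ z ∈ img Z, P.pr Z z * ((P.cond Z z).H (fun ω => (X ω, Y ω)) - (P.cond Z z).H Y) =
      ∑ z ∈ img Z, P.pr Z z * (P.cond Z z).H (fun ω => (X ω, Y ω)) -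
        ∑ z ∈ img Z, P.pr Z z * (P.cond Z z).H Y := by
    rw [← Finset.sum_sub_distrib]
    exact Finset.sum_congr rfl fun z _ => by ring
  rw [h4]
  linarith

/-- transport of an approximate translation to another law -/
theorem Tr.change {P Q : Law Ω} (Y : Ω → S) (X : S → ι → ℝ) {u c : ι → ℝ} {ε : ℝ}
    (h : Tr P (fun ω => X (Y ω)) u c ε) :
    Tr Q (fun ω => X (Y ω)) u c (ε + dl Q Y P Y) := by
  have h1 := SubC.of_dl Q Y P Y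
  have h2 := SubC.of_dl P Y Q Y
  refine ((h1.comp h).comp h2).mono ?_ ?_
  · rintro a b ⟨b', ⟨a', e1, h3⟩, e2⟩ i
    have := h3 i
    dsimp only at this ⊢
    rw [e1, ← e2]
    exact this
  · rw [dl_symm P Y]
    linarith

/-- changing the vector on the support -/
theorem Tr.congr_left {P : Law Ω} {A A' : Ω → ι → ℝ} {u c : ι → ℝ} {ε : ℝ} (h : Tr P A u c ε)
    (hA : ∀ ω, 0 < P.w ω → ∀ i, A' ω i = A ω i) : Tr P A' u c ε := by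
  refine (SubC.pos h).mono ?_ le_rfl
  rintro a b ⟨ha, hb, h1⟩ i
  rw [hA a ha, hA b hb]
  exact h1 i

theorem hc_congr_supp {P : Law Ω} {X X' : Ω → S} {Y Y' : Ω → T}
    (h : ∀ ω, 0 < P.w ω → X ω = X' ω) (h' : ∀ ω, 0 < P.w ω → Y ω = Y' ω) :
    hc P X Y = hc P X' Y' := by
  refine hc_congr P ?_ ?_ ?_ ?_
  · intro ω ω' p p' e
    rw [h ω p, h ω' p']
    exact congrArg Prod.fst e
  · intro ω ω' p p' e
    rw [← h ω p, ← h ω' p']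
    exact congrArg Prod.fst e
  · intro ω ω' p p' e
    rw [← h' ω p, ← h' ω' p'] at *
    exact e
  · intro ω ω' p p' e
    rw [← h' ω p, ← h' ω' p']
    exact e

/-- **THE M-STEP** -/
theorem mstep (P : Law Ω) (D : Ω → U) (Θ : Ω → V) (W : Ω → S) (e : U → S → ℝ)
    (A : U → V → S → ι → ℝ) (g h : U → V → V → ι → ℝ) (c : ι → ℝ)
    (hA : ∀ d θ₁ θ₂ w i,
      |A d θ₂ w i - A d θ₁ w i - (e d w * g d θ₁ θ₂ i + h d θ₁ θ₂ i)| ≤ c i)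
    (χ : U → V → V → V → ℝ → ℝ → ℝ) (hχ0 : ∀ d θ θ₂ θ₃ x x', 0 ≤ χ d θ θ₂ θ₃ x x')
    (hχ1 : ∀ d θ θ₂ θ₃ x x', χ d θ θ₂ θ₃ x x' ≤ 1)
    (fine : U → V → (ι → ℝ) → F) (coarse : U → V → (ι → ℝ) → G) (Φ N : ℝ) (hN : 0 ≤ N)
    (hsat : ∀ d θ θ₂ θ₃ x x', 0 < χ d θ θ₂ θ₃ x x' → ∀ (Q : Law Ω) (X : Ω → ι → ℝ) (ε₁ ε₂ : ℝ),
      Tr Q X (fun i => (x - x') * g d θ θ₂ i) (fun i => 2 * c i) ε₁ →
      Tr Q X (fun i => (x - x') * g d θ θ₃ i) (fun i => 2 * c i) ε₂ →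
      Φ - N * (ε₁ + ε₂) ≤ hc Q (fun ω => fine d θ (X ω)) (fun ω => coarse d θ (X ω))) :
    P.ex (fun ω => (P.cond D (D ω)).ex (fun ω₂ => (P.cond D (D ω)).ex (fun ω₃ =>
      (P.cond D (D ω)).ex (fun ω₄ => (P.cond D (D ω)).ex (fun ω₅ =>
        χ (D ω) (Θ ω) (Θ ω₂) (Θ ω₃) (e (D ω) (W ω₄)) (e (D ω) (W ω₅))))))) * Φ -
      N * (16 * Real.sqrt (mi P (fun ω => e (D ω) (W ω)) (fun ω => A (D ω) (Θ ω) (W ω))
        (fun ω => (D ω, Θ ω))) + 56 * Real.sqrt (mi P Θ W D)) ≤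
    hc P (fun ω => fine (D ω) (Θ ω) (A (D ω) (Θ ω) (W ω)))
      (fun ω => (coarse (D ω) (Θ ω) (A (D ω) (Θ ω) (W ω)), (D ω, Θ ω))) := by
  classical
  -- abbreviations
  set I1 : ℝ := Real.sqrt (mi P (fun ω => e (D ω) (W ω)) (fun ω => A (D ω) (Θ ω) (W ω))
        (fun ω => (D ω, Θ ω))) with hI1
  set I2 : ℝ := Real.sqrt (mi P Θ W D) with hI2
  let J : Ω → Ω → ℝ := fun ω ω₂ => il (P.cond D (D ω)) (fun ω' => e (D ω) (W ω'))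
      (fun ω' => A (D ω) (Θ ω₂) (W ω'))
  let K : Ω → ℝ := fun ω => dl (P.cond (fun ω => (D ω, Θ ω)) (D ω, Θ ω)) W (P.cond D (D ω)) W
  have hJ1 : P.ex (fun ω => J ω ω) ≤ 4 * I1 + 12 * I2 := one_theta P D Θ W e A
  have hJ2 : P.ex (fun ω => (P.cond D (D ω)).ex (fun ω₂ => J ω ω₂)) = P.ex (fun ω => J ω ω) := by
    rw [← ex_cond P D (fun ω => J ω ω)]
    refine P.ex_congr fun ω hω => Law.ex_congr _ fun ω₂ h₂ => ?_
    have : D ω₂ = D ω := (cond_supp P D (P.pr_pos D hω) h₂).1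
    simp only [J]
    rw [this]
  have hK : P.ex K ≤ 4 * I2 := pin_dl P Θ W D
  -- the pointwise inequality
  have key : ∀ ω, 0 < P.w ω →
      (P.cond D (D ω)).ex (fun ω₂ => (P.cond D (D ω)).ex (fun ω₃ =>
      (P.cond D (D ω)).ex (fun ω₄ => (P.cond D (D ω)).ex (fun ω₅ =>
        χ (D ω) (Θ ω) (Θ ω₂) (Θ ω₃) (e (D ω) (W ω₄)) (e (D ω) (W ω₅)))))) * Φ -
      N * ((2 * J ω ω + (P.cond D (D ω)).ex (fun ω₂ => J ω ω₂) +
        (P.cond D (D ω)).ex (fun ω₃ => J ω ω₃)) + 2 * K ω) ≤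
      hc (P.cond (fun ω => (D ω, Θ ω)) (D ω, Θ ω))
        (fun ω => fine (D ω) (Θ ω) (A (D ω) (Θ ω) (W ω)))
        (fun ω => coarse (D ω) (Θ ω) (A (D ω) (Θ ω) (W ω))) := by
    intro ω hω
    set R := P.cond D (D ω) with hR
    set Q := P.cond (fun ω => (D ω, Θ ω)) (D ω, Θ ω) with hQ
    have hQs : ∀ ω', 0 < Q.w ω' → D ω' = D ω ∧ Θ ω' = Θ ω := fun ω' h' =>
      Prod.mk.inj (cond_supp P (fun ω => (D ω, Θ ω)) (P.pr_pos (fun ω => (D ω, Θ ω)) hω) h').1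
    have hhc : hc Q (fun ω => fine (D ω) (Θ ω) (A (D ω) (Θ ω) (W ω)))
        (fun ω => coarse (D ω) (Θ ω) (A (D ω) (Θ ω) (W ω))) =
        hc Q (fun ω' => fine (D ω) (Θ ω) (A (D ω) (Θ ω) (W ω')))
        (fun ω' => coarse (D ω) (Θ ω) (A (D ω) (Θ ω) (W ω'))) := by
      refine hc_congr_supp (fun ω' h' => ?_) fun ω' h' => ?_
      · rw [(hQs ω' h').1, (hQs ω' h').2]
      · rw [(hQs ω' h').1, (hQs ω' h').2]
    rw [hhc]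
    set H := hc Q (fun ω' => fine (D ω) (Θ ω) (A (D ω) (Θ ω) (W ω')))
        (fun ω' => coarse (D ω) (Θ ω) (A (D ω) (Θ ω) (W ω'))) with hH
    have hH0 : 0 ≤ H := hc_nonneg _ _ _
    -- the error of one translation
    let er : Ω → Ω → Ω → ℝ := fun ω₂ ω₄ ω₅ =>
      (dl (R.cond (fun ω' => e (D ω) (W ω')) (e (D ω) (W ω₄)))
          (fun ω' => A (D ω) (Θ ω) (W ω')) R (fun ω' => A (D ω) (Θ ω) (W ω')) +
        dl (R.cond (fun ω' => e (D ω) (W ω')) (e (D ω) (W ω₄)))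
          (fun ω' => A (D ω) (Θ ω₂) (W ω'))
          (R.cond (fun ω' => e (D ω) (W ω')) (e (D ω) (W ω₅)))
          (fun ω' => A (D ω) (Θ ω₂) (W ω')) +
        dl (R.cond (fun ω' => e (D ω) (W ω')) (e (D ω) (W ω₅)))
          (fun ω' => A (D ω) (Θ ω) (W ω')) R (fun ω' => A (D ω) (Θ ω) (W ω'))) / 2
    have her0 : ∀ ω₂ ω₄ ω₅, 0 ≤ er ω₂ ω₄ ω₅ := fun ω₂ ω₄ ω₅ =>
      div_nonneg (add_nonneg (add_nonneg (dl_nonneg _ _ _ _) (dl_nonneg _ _ _ _))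
        (dl_nonneg _ _ _ _)) (by norm_num)
    have hK0 : 0 ≤ K ω := dl_nonneg _ _ _ _
    have htr : ∀ ω₂ ω₄ ω₅, 0 < R.w ω₄ → 0 < R.w ω₅ →
        Tr Q (fun ω' => A (D ω) (Θ ω) (W ω'))
          (fun i => (e (D ω) (W ω₄) - e (D ω) (W ω₅)) * g (D ω) (Θ ω) (Θ ω₂) i)
          (fun i => 2 * c i) (er ω₂ ω₄ ω₅ + K ω) := by
      intro ω₂ ω₄ ω₅ h4 h5
      have h6 := Tr.two_ind R (fun ω' => e (D ω) (W ω')) (fun ω' => A (D ω) (Θ ω) (W ω'))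
        (fun ω' => A (D ω) (Θ ω₂) (W ω'))
        (fun x i => x * g (D ω) (Θ ω) (Θ ω₂) i + h (D ω) (Θ ω) (Θ ω₂) i) c
        (fun ω' _ i => hA _ _ _ _ i) (R.pr_pos (fun ω' => e (D ω) (W ω')) h4)
        (R.pr_pos (fun ω' => e (D ω) (W ω')) h5)
      have h7 := Tr.change (P := R) (Q := Q) W (fun w => A (D ω) (Θ ω) w) h6
      exact h7.congr fun i => by ring
    have hpt : ∀ ω₂ ω₃ ω₄ ω₅, 0 < R.w ω₄ → 0 < R.w ω₅ →
        χ (D ω) (Θ ω) (Θ ω₂) (Θ ω₃) (e (D ω) (W ω₄)) (e (D ω) (W ω₅)) * Φ -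
          N * ((er ω₂ ω₄ ω₅ + er ω₃ ω₄ ω₅) + 2 * K ω) ≤
        χ (D ω) (Θ ω) (Θ ω₂) (Θ ω₃) (e (D ω) (W ω₄)) (e (D ω) (W ω₅)) * H := by
      intro ω₂ ω₃ ω₄ ω₅ h4 h5
      set x := χ (D ω) (Θ ω) (Θ ω₂) (Θ ω₃) (e (D ω) (W ω₄)) (e (D ω) (W ω₅)) with hx
      have hx0 : 0 ≤ x := hχ0 _ _ _ _ _ _
      have hx1 : x ≤ 1 := hχ1 _ _ _ _ _ _
      have hE0 : 0 ≤ N * ((er ω₂ ω₄ ω₅ + er ω₃ ω₄ ω₅) + 2 * K ω) :=
        mul_nonneg hN (by linarith [her0 ω₂ ω₄ ω₅, her0 ω₃ ω₄ ω₅])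
      rcases hx0.eq_or_lt with h0 | h0
      · rw [← h0]
        linarith
      · have h8 := hsat _ _ _ _ _ _ h0 Q (fun ω' => A (D ω) (Θ ω) (W ω')) _ _
          (htr ω₂ ω₄ ω₅ h4 h5) (htr ω₃ ω₄ ω₅ h4 h5)
        have h9 := mul_le_mul_of_nonneg_left h8 hx0
        have h10 : x * (N * ((er ω₂ ω₄ ω₅ + er ω₃ ω₄ ω₅) + 2 * K ω)) ≤
            N * ((er ω₂ ω₄ ω₅ + er ω₃ ω₄ ω₅) + 2 * K ω) := mul_le_of_le_one_left hE0 hx1
        have h11 : x * (Φ - N * (er ω₂ ω₄ ω₅ + K ω + (er ω₃ ω₄ ω₅ + K ω))) =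
            x * Φ - x * (N * ((er ω₂ ω₄ ω₅ + er ω₃ ω₄ ω₅) + 2 * K ω)) := by ring
        rw [h11] at h9
        linarith
    -- average over the four copies
    let X4 : Ω → Ω → Ω → Ω → ℝ := fun ω₂ ω₃ ω₄ ω₅ =>
      χ (D ω) (Θ ω) (Θ ω₂) (Θ ω₃) (e (D ω) (W ω₄)) (e (D ω) (W ω₅))
    let av : (Ω → Ω → Ω → Ω → ℝ) → ℝ := fun f =>
      R.ex (fun ω₂ => R.ex (fun ω₃ => R.ex (fun ω₄ => R.ex (fun ω₅ => f ω₂ ω₃ ω₄ ω₅))))
    have av_mono : ∀ f f' : Ω → Ω → Ω → Ω → ℝ, (∀ ω₂ ω₃ ω₄ ω₅, 0 < R.w ω₄ → 0 < R.w ω₅ →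
        f ω₂ ω₃ ω₄ ω₅ ≤ f' ω₂ ω₃ ω₄ ω₅) → av f ≤ av f' := fun f f' hff =>
      R.ex_mono fun ω₂ _ => R.ex_mono fun ω₃ _ => R.ex_mono fun ω₄ h4 => R.ex_mono fun ω₅ h5 =>
        hff ω₂ ω₃ ω₄ ω₅ h4 h5
    have e1 : av (fun ω₂ ω₃ ω₄ ω₅ => X4 ω₂ ω₃ ω₄ ω₅ * Φ -
        N * ((er ω₂ ω₄ ω₅ + er ω₃ ω₄ ω₅) + 2 * K ω)) ≤
        av (fun ω₂ ω₃ ω₄ ω₅ => X4 ω₂ ω₃ ω₄ ω₅ * H) := av_mono _ _ hpt
    have e2 : av (fun ω₂ ω₃ ω₄ ω₅ => X4 ω₂ ω₃ ω₄ ω₅ * H) ≤ H := by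
      have : av (fun ω₂ ω₃ ω₄ ω₅ => X4 ω₂ ω₃ ω₄ ω₅ * H) ≤ av (fun _ _ _ _ => H) :=
        av_mono _ _ fun ω₂ ω₃ ω₄ ω₅ _ _ => mul_le_of_le_one_left hH0 (hχ1 _ _ _ _ _ _)
      refine this.trans (le_of_eq ?_)
      simp only [av, R.ex_const]
    have e3 : av (fun ω₂ ω₃ ω₄ ω₅ => X4 ω₂ ω₃ ω₄ ω₅ * Φ -
        N * ((er ω₂ ω₄ ω₅ + er ω₃ ω₄ ω₅) + 2 * K ω)) =
        av X4 * Φ - N * ((R.ex (fun ω₂ => R.ex (fun ω₄ => R.ex (fun ω₅ => er ω₂ ω₄ ω₅))) +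
          R.ex (fun ω₃ => R.ex (fun ω₄ => R.ex (fun ω₅ => er ω₃ ω₄ ω₅)))) + 2 * K ω) := by
      simp only [av]
      simp only [R.ex_sub, R.ex_const_mul, R.ex_add, R.ex_const]
      congr 1
      simp only [mul_comm _ Φ, R.ex_const_mul]
    have e4 : R.ex (fun ω₂ => R.ex (fun ω₄ => R.ex (fun ω₅ => er ω₂ ω₄ ω₅))) ≤
        J ω ω + R.ex (fun ω₂ => J ω ω₂) := by
      have : R.ex (fun ω₂ => R.ex (fun ω₄ => R.ex (fun ω₅ => er ω₂ ω₄ ω₅))) ≤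
          R.ex (fun ω₂ => J ω ω + J ω ω₂) := by
        refine R.ex_mono fun ω₂ _ => ?_
        exact two_ind_err R (fun ω' => e (D ω) (W ω')) (fun ω' => A (D ω) (Θ ω) (W ω'))
          (fun ω' => A (D ω) (Θ ω₂) (W ω'))
      rwa [R.ex_add, R.ex_const] at this
    rw [e3] at e1
    have e5 : N * ((R.ex (fun ω₂ => R.ex (fun ω₄ => R.ex (fun ω₅ => er ω₂ ω₄ ω₅))) +
          R.ex (fun ω₃ => R.ex (fun ω₄ => R.ex (fun ω₅ => er ω₃ ω₄ ω₅)))) + 2 * K ω) ≤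
        N * ((2 * J ω ω + R.ex (fun ω₂ => J ω ω₂) + R.ex (fun ω₃ => J ω ω₃)) + 2 * K ω) :=
      mul_le_mul_of_nonneg_left (by linarith) hN
    have e6 : av X4 * Φ - N * ((2 * J ω ω + R.ex (fun ω₂ => J ω ω₂) +
        R.ex (fun ω₃ => J ω ω₃)) + 2 * K ω) ≤ H := by linarith
    exact e6
  -- average over the past
  rw [hc_cond_ex P _ _ (fun ω => (D ω, Θ ω))]
  have hfin := P.ex_mono key
  refine le_trans ?_ hfin
  rw [P.ex_sub, P.ex_const_mul, P.ex_add, P.ex_const_mul, P.ex_add, P.ex_add, P.ex_const_mul, hJ2]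
  have e7 : N * ((2 * P.ex (fun ω => J ω ω) + P.ex (fun ω => J ω ω) + P.ex (fun ω => J ω ω)) +
      2 * P.ex (fun ω => K ω)) ≤ N * (16 * I1 + 56 * I2) := by
    refine mul_le_mul_of_nonneg_left ?_ hN
    have : P.ex (fun ω => K ω) ≤ 4 * I2 := hK
    linarith
  have e8 : P.ex (fun ω => (P.cond D (D ω)).ex (fun ω₂ => (P.cond D (D ω)).ex (fun ω₃ =>
      (P.cond D (D ω)).ex (fun ω₄ => (P.cond D (D ω)).ex (fun ω₅ =>
        χ (D ω) (Θ ω) (Θ ω₂) (Θ ω₃) (e (D ω) (W ω₄)) (e (D ω) (W ω₅)))))) * Φ) =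
      P.ex (fun ω => (P.cond D (D ω)).ex (fun ω₂ => (P.cond D (D ω)).ex (fun ω₃ =>
      (P.cond D (D ω)).ex (fun ω₄ => (P.cond D (D ω)).ex (fun ω₅ =>
        χ (D ω) (Θ ω) (Θ ω₂) (Θ ω₃) (e (D ω) (W ω₄)) (e (D ω) (W ω₅))))))) * Φ := by
    simp only [mul_comm _ Φ, P.ex_const_mul]
  rw [e8]
  linarith

end Vale.Agent.P127.TV
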