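import Vale.Agent.P127.TV.MStepC

/-!
# P127 / TV : the M-step for exact positions, with the lattice
-/

namespace Vale.Agent.P127.TV

open Finset Vale.Agent.P127 Vale.Agent.P127.Stk Vale.Agent.P127.U.Pin

variable {Ω : Type} [Fintype Ω] {S U V Z : Type*}

/-- **M-STEP + LATTICE, exact positions**: `z = (pi 0, pi 1)` in the units of the shifts, square
cells of sides `l ≤ L`, rounding `ρ` with `10 R ρ ≤ 1`, `L ≤ R τ²` -/
theorem mstepC_lat (P : Law Ω) (D : Ω → U) (Θ : Ω → V) (W : Ω → S) (E : Ω → Z) (e : U → S → ℝ)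
    (pi : Ω → Fin 2 → ℝ) (be : V → Ω → Fin 2 → ℝ) (s Gs : U → V → V → ℝ)
    (h : U → V → V → Fin 2 → ℝ) (ρ : ℝ)
    (geo : Geo P D Θ W E e pi be
      (fun d θ₁ θ₂ i => if i = 0 then s d θ₁ θ₂ else s d θ₁ θ₂ * Gs d θ₁ θ₂) h (fun _ => ρ))
    (hρ0 : 0 ≤ ρ)
    (τ l L : ℝ) (R : ℕ) (hτ : 0 < τ) (hτ1 : τ ≤ 1) (hl : 1 ≤ l) (hlL : l ≤ L)
    (hR : L ≤ R * τ ^ 2) (hρ : 10 * R * ρ ≤ 1) :
    P.ex (fun ω => (P.cond D (D ω)).ex (fun ω₂ => (P.cond D (D ω)).ex (fun ω₃ =>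
      (P.cond D (D ω)).ex (fun ω₄ => (P.cond D (D ω)).ex (fun ω₅ =>
        chiL s Gs τ (D ω) (Θ ω) (Θ ω₂) (Θ ω₃) (e (D ω) (W ω₄)) (e (D ω) (W ω₅))))))) *
        (2 * Real.log (L / l) - Real.log 3168) -
      R * (1 + 2 * Real.log R) *
        (16 * Real.sqrt (mi P (fun ω => e (D ω) (W ω)) E (fun ω => (D ω, Θ ω))) +
          128 * Real.sqrt (mi P Θ W D)) ≤
    hc P (fun ω => Lat.cell l (pi ω 0, pi ω 1))
      (fun ω => (Lat.cell L (pi ω 0, pi ω 1), (D ω, Θ ω))) := by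
  classical
  have hL1 : 1 ≤ L := hl.trans hlL
  have hR0 : (0 : ℝ) < R := by
    by_contra hcon
    have : (R : ℝ) * τ ^ 2 ≤ 0 := mul_nonpos_of_nonpos_of_nonneg (not_lt.1 hcon) (by positivity)
    linarith
  have hR1 : (1 : ℝ) ≤ R := by
    have : 0 < R := by exact_mod_cast hR0
    exact_mod_cast this
  have hlogR : 0 ≤ Real.log R := Real.log_nonneg hR1
  refine mstepC P D Θ W E e pi be _ h (fun _ => ρ) geo (chiL s Gs τ) ?_ ?_
    (fun _ _ x => Lat.cell l (x 0, x 1)) (fun _ _ x => Lat.cell L (x 0, x 1))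
    (2 * Real.log (L / l) - Real.log 3168) (R * (1 + 2 * Real.log R)) (by positivity) ?_
  · intro d θ θ₂ θ₃ x x'
    unfold chiL
    split_ifs
    · exact zero_le_one
    · exact le_rfl
  · intro d θ θ₂ θ₃ x x'
    unfold chiL
    split_ifs
    · exact le_rfl
    · exact zero_le_one
  · intro d θ θ₂ θ₃ x x' hχ Q X ε₁ ε₂ t₁ t₂
    unfold chiL at hχ
    split_ifs at hχ with hc
    swap
    · exact absurd hχ (lt_irrefl _)
    obtain ⟨c1, c2, c3, c4, c5, c6, c7⟩ := hc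
    have hRτ : (R : ℝ) * τ ^ 2 ≤ R * τ := by
      refine mul_le_mul_of_nonneg_left ?_ hR0.le
      nlinarith
    have q1 : L ≤ R * |(x - x') * s d θ θ₂| := by
      have := mul_le_mul_of_nonneg_left c1 hR0.le
      linarith
    have q2 : L ≤ R * |(x - x') * s d θ θ₃| := by
      have := mul_le_mul_of_nonneg_left c3 hR0.le
      linarith
    have q3 : ∀ y, τ ≤ |y| → L ≤ R * |y| * |Gs d θ θ₃ - Gs d θ θ₂| := by
      intro y hy
      refine hR.trans ?_
      rw [pow_two, mul_assoc]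
      refine mul_le_mul_of_nonneg_left ?_ hR0.le
      exact mul_le_mul hy c5 hτ.le (abs_nonneg _)
    have hst : ∀ (y gg : ℝ) (ε : ℝ), Tr Q X (fun i => (x - x') * (if i = 0 then y else y * gg))
        (fun _ => 5 * ρ) ε →
        SubC Q Q (fun a b => Lat.Step ((x - x') * y) gg (5 * ρ) (X a 0, X a 1) (X b 0, X b 1)) ε := by
      intro y gg ε ht
      refine SubC.mono ht (fun a b hab => ?_) le_rfl
      have k0 := hab 0
      have k1 := hab 1
      simp only [if_true, if_neg (one_ne_zero : (1 : Fin 2) ≠ 0)] at k0 k1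
      constructor
      · dsimp only
        rw [show X b 0 - (X a 0 + (x - x') * y) = X b 0 - X a 0 - (x - x') * y by ring]
        exact k0
      · dsimp only
        rw [show X b 1 - (X a 1 + (x - x') * y * gg) = X b 1 - X a 1 - (x - x') * (y * gg) by ring]
        exact k1
    have h1 := hst _ _ _ t₁
    have h2 := hst _ _ _ t₂
    have := Lat.lat_step Q (fun ω => (X ω 0, X ω 1)) ((x - x') * s d θ θ₂) ((x - x') * s d θ θ₃)
      (Gs d θ θ₂) (Gs d θ θ₃) l L (5 * ρ) ε₁ ε₂ R (hτ.trans_le c1) (hτ.trans_le c3) c2 c4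
      (hτ.trans_le c5) c6 c7 hl hlL q1 q2 (q3 _ c1) (q3 _ c3) (by linarith) (by linarith)
      (SubC.eps_nonneg h1) (SubC.eps_nonneg h2) h1 h2
    refine le_trans (le_of_eq ?_) this
    ring

end Vale.Agent.P127.TV
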