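import Mathlib

/-!
# P127 / TV : counting for two short, nearly parallel translations (helper881)

Translations `n₁ α₁ (1, g₁) + n₂ α₂ (1, g₂)`, `n₁ < R₁`, `n₂ < R₂`, with rounding errors `≤ 1`.
* `fib_le` : at most `C₀` pairs `(n₁, n₂)` lead to one fine cell (side `l`);
* `crs_le` : at most `C₁` coarse cells (side `L`) are met;
* the product `C₀ * C₁` is at most `3168 R₁ R₂ (l / L)²`, whatever the angle `|g₁ - g₂|`.
-/

set_option autoImplicit false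

namespace Vale.Agent.P127.TV.Lat

open Finset

/-- integers in an interval -/
theorem card_int_le (S : Finset ℤ) (a c r : ℝ) (ha : a ≠ 0) (hr : 0 ≤ r)
    (h : ∀ n ∈ S, |(n : ℝ) * a - c| ≤ r) : (S.card : ℝ) ≤ 2 * r / |a| + 1 := by
  have ha' : 0 < |a| := abs_pos.2 ha
  set ρ : ℝ := r / |a| with hρ
  have hρ0 : 0 ≤ ρ := div_nonneg hr ha'.le
  have h1 : ∀ n ∈ S, |(n : ℝ) - c / a| ≤ ρ := by
    intro n hn
    rw [hρ, le_div_iff₀ ha', ← abs_mul]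
    have : ((n : ℝ) - c / a) * a = (n : ℝ) * a - c := by
      field_simp
    rw [this]
    exact h n hn
  have h2 : S ⊆ Finset.Icc ⌈c / a - ρ⌉ ⌊c / a + ρ⌋ := by
    intro n hn
    have := abs_le.1 (h1 n hn)
    rw [Finset.mem_Icc, Int.ceil_le, Int.le_floor]
    constructor <;> linarith [this.1, this.2]
  have h3 : (S.card : ℤ) ≤ ((⌊c / a + ρ⌋ + 1 - ⌈c / a - ρ⌉).toNat : ℤ) := by
    have := Finset.card_le_card h2
    rw [Int.card_Icc] at this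
    exact_mod_cast this
  have h4 : 2 * r / |a| + 1 = 2 * ρ + 1 := by rw [hρ]; ring
  rw [h4]
  rcases le_total 0 (⌊c / a + ρ⌋ + 1 - ⌈c / a - ρ⌉) with h5 | h5
  · rw [Int.toNat_of_nonneg h5] at h3
    have h6 : (S.card : ℝ) ≤ ((⌊c / a + ρ⌋ + 1 - ⌈c / a - ρ⌉ : ℤ) : ℝ) := by exact_mod_cast h3
    push_cast at h6
    have h7 := Int.floor_le (c / a + ρ)
    have h8 := Int.le_ceil (c / a - ρ)
    linarith
  · rw [Int.toNat_of_nonpos h5] at h3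
    have : (S.card : ℝ) ≤ 0 := by exact_mod_cast h3
    linarith

/-- natural numbers in an interval -/
theorem card_nat_le (S : Finset ℕ) (a c r : ℝ) (ha : a ≠ 0) (hr : 0 ≤ r)
    (h : ∀ n ∈ S, |(n : ℝ) * a - c| ≤ r) : (S.card : ℝ) ≤ 2 * r / |a| + 1 := by
  have h1 : (S.map Nat.castEmbedding : Finset ℤ).card = S.card := Finset.card_map _
  rw [← h1]
  refine card_int_le _ a c r ha hr ?_
  intro n hn
  rw [Finset.mem_map] at hn
  obtain ⟨k, hk, rfl⟩ := hn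
  simpa using h k hk

/-- a set of pairs : fibres and image -/
theorem card_pair_le {α β : Type} (S : Finset (α × β)) (A B : ℝ)
    (hA : 0 ≤ A) (h1 : ∀ T : Finset β, (∀ b ∈ T, ∃ a, (a, b) ∈ S) → (T.card : ℝ) ≤ B)
    (h2 : ∀ b, ∀ T : Finset α, (∀ a ∈ T, (a, b) ∈ S) → (T.card : ℝ) ≤ A) :
    (S.card : ℝ) ≤ A * B := by
  classical
  have h3 : S.card ≤ ⌊A⌋₊ * (S.image Prod.snd).card := by
    refine Finset.card_le_mul_card_image S ⌊A⌋₊ ?_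
    intro b _
    refine Nat.le_floor ?_
    have h4 : ({x ∈ S | x.2 = b} : Finset (α × β)).card =
        (({x ∈ S | x.2 = b} : Finset (α × β)).image Prod.fst).card := by
      rw [Finset.card_image_of_injOn]
      intro x hx y hy hxy
      simp only [Finset.coe_filter, Set.mem_ofPred_eq] at hx hy
      exact Prod.ext hxy (hx.2.trans hy.2.symm)
    rw [h4]
    refine h2 b _ ?_
    intro a ha
    rw [Finset.mem_image] at ha
    obtain ⟨x, hx, rfl⟩ := ha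
    rw [Finset.mem_filter] at hx
    rw [← hx.2]
    exact hx.1
  have h5 : ((S.image Prod.snd).card : ℝ) ≤ B := by
    refine h1 _ ?_
    intro b hb
    rw [Finset.mem_image] at hb
    obtain ⟨x, hx, rfl⟩ := hb
    exact ⟨x.1, hx⟩
  have h6 : (S.card : ℝ) ≤ (⌊A⌋₊ : ℝ) * ((S.image Prod.snd).card : ℝ) := by exact_mod_cast h3
  have h7 : (⌊A⌋₊ : ℝ) ≤ A := Nat.floor_le hA
  calc (S.card : ℝ) ≤ (⌊A⌋₊ : ℝ) * ((S.image Prod.snd).card : ℝ) := h6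
    _ ≤ A * B := mul_le_mul h7 h5 (Nat.cast_nonneg _) hA

/-- number of pairs `(n₁, n₂)` leading to a given small square -/
theorem fib_gen (S : Finset (ℕ × ℕ)) (a₁ a₂ g₁ g₂ c d r : ℝ) (ha₁ : a₁ ≠ 0) (ha₂ : a₂ ≠ 0)
    (hg : g₁ ≠ g₂) (hg₁ : |g₁| ≤ 1) (hr : 0 ≤ r)
    (h : ∀ n ∈ S, |(n.1 : ℝ) * a₁ + n.2 * a₂ - c| ≤ r ∧
      |(n.1 : ℝ) * a₁ * g₁ + n.2 * a₂ * g₂ - d| ≤ r) :
    (S.card : ℝ) ≤ (2 * r / |a₁| + 1) * (4 * r / (|a₂| * |g₂ - g₁|) + 1) := by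
  have hga : g₂ - g₁ ≠ 0 := sub_ne_zero.2 hg.symm
  refine card_pair_le S _ _ (by positivity) ?_ ?_
  · intro T hT
    have h1 := card_nat_le T (a₂ * (g₂ - g₁)) (d - g₁ * c) (2 * r) (mul_ne_zero ha₂ hga)
      (by linarith) ?_
    · rw [abs_mul] at h1
      convert h1 using 3
      ring
    · intro b hb
      obtain ⟨a, ha⟩ := hT b hb
      obtain ⟨h2, h3⟩ := h _ ha
      have h4 : (b : ℝ) * (a₂ * (g₂ - g₁)) - (d - g₁ * c) =
          ((a : ℝ) * a₁ * g₁ + b * a₂ * g₂ - d) - g₁ * ((a : ℝ) * a₁ + b * a₂ - c) := by ring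
      rw [h4]
      calc |((a : ℝ) * a₁ * g₁ + b * a₂ * g₂ - d) - g₁ * ((a : ℝ) * a₁ + b * a₂ - c)|
          ≤ |(a : ℝ) * a₁ * g₁ + b * a₂ * g₂ - d| + |g₁ * ((a : ℝ) * a₁ + b * a₂ - c)| :=
            abs_sub _ _
        _ ≤ r + 1 * r := by
            rw [abs_mul]
            exact add_le_add h3 (mul_le_mul hg₁ h2 (abs_nonneg _) zero_le_one)
        _ = 2 * r := by ring
  · intro b T hT
    refine card_nat_le T a₁ (c - b * a₂) r ha₁ hr ?_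
    intro a ha
    have := (h _ (hT a ha)).1
    convert this using 2
    ring

/-- `(x'', f'')` is `(x, f)` translated by `n₁ α₁ (1, g₁) + n₂ α₂ (1, g₂)`, up to rounding -/
def Moved (a₁ a₂ g₁ g₂ : ℝ) (z : ℝ × ℝ) (n : ℕ × ℕ) (z' : ℝ × ℝ) : Prop :=
  |z'.1 - (z.1 + (n.1 * a₁ + n.2 * a₂))| ≤ 1 ∧
    |z'.2 - (z.2 + (n.1 * a₁ * g₁ + n.2 * a₂ * g₂))| ≤ 1

/-- the cell of side `l` -/
noncomputable def cell (l : ℝ) (z : ℝ × ℝ) : ℤ × ℤ := (⌊z.1 / l⌋, ⌊z.2 / l⌋)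

theorem abs_of_floor {l x : ℝ} (hl : 0 < l) {u : ℤ} (h : ⌊x / l⌋ = u) :
    |x - ((u : ℝ) + 1 / 2) * l| ≤ l / 2 := by
  have h1 := Int.floor_le (x / l)
  have h2 := Int.lt_floor_add_one (x / l)
  rw [h] at h1 h2
  rw [le_div_iff₀ hl] at h1
  rw [div_lt_iff₀ hl] at h2
  rw [abs_le]
  constructor <;> linarith

/-- **fibres over a fine cell** -/
theorem fib_le (S : Finset (ℕ × ℕ)) (a₁ a₂ g₁ g₂ l : ℝ) (z : ℝ × ℝ) (q : ℤ × ℤ)
    (ha₁ : 0 < |a₁|) (ha₂ : 0 < |a₂|) (ha₁' : |a₁| ≤ 1) (ha₂' : |a₂| ≤ 1)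
    (hg : 0 < |g₂ - g₁|) (hg₁ : |g₁| ≤ 1) (hg₂ : |g₂| ≤ 1) (hl : 1 ≤ l)
    (h : ∀ n ∈ S, ∃ z', Moved a₁ a₂ g₁ g₂ z n z' ∧ cell l z' = q) :
    (S.card : ℝ) ≤ 32 * l ^ 2 / (|a₁| * |a₂| * |g₂ - g₁|) := by
  have hl0 : 0 < l := by linarith
  have h0 : (S.card : ℝ) ≤ (2 * (l / 2 + 1) / |a₁| + 1) *
      (4 * (l / 2 + 1) / (|a₂| * |g₂ - g₁|) + 1) := by
    refine fib_gen S a₁ a₂ g₁ g₂ (((q.1 : ℝ) + 1 / 2) * l - z.1) (((q.2 : ℝ) + 1 / 2) * l - z.2)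
      (l / 2 + 1) (abs_pos.1 ha₁) (abs_pos.1 ha₂) ?_ hg₁ (by linarith) ?_
    · intro e
      rw [e, sub_self, abs_zero] at hg
      exact lt_irrefl _ hg
    · intro n hn
      obtain ⟨z', ⟨h1, h2⟩, h3⟩ := h n hn
      have h4 := abs_of_floor hl0 (congrArg Prod.fst h3)
      have h5 := abs_of_floor hl0 (congrArg Prod.snd h3)
      rw [abs_le] at h1 h2 h4 h5 ⊢
      constructor
      · constructor <;> linarith [h1.1, h1.2, h4.1, h4.2]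
      · rw [abs_le]
        constructor <;> linarith [h2.1, h2.2, h5.1, h5.2]
  have hgle : |g₂ - g₁| ≤ 2 := by
    calc |g₂ - g₁| ≤ |g₂| + |g₁| := abs_sub _ _
      _ ≤ 2 := by linarith
  have h1 : 2 * (l / 2 + 1) / |a₁| + 1 ≤ 4 * l / |a₁| := by
    rw [div_add_one ha₁.ne']
    refine div_le_div_of_nonneg_right ?_ ha₁.le
    linarith
  have hx : 0 < |a₂| * |g₂ - g₁| := mul_pos ha₂ hg
  have h2 : 4 * (l / 2 + 1) / (|a₂| * |g₂ - g₁|) + 1 ≤ 8 * l / (|a₂| * |g₂ - g₁|) := by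
    rw [div_add_one hx.ne']
    refine div_le_div_of_nonneg_right ?_ hx.le
    have : |a₂| * |g₂ - g₁| ≤ 1 * 2 := mul_le_mul ha₂' hgle hg.le zero_le_one
    linarith
  calc (S.card : ℝ) ≤ (2 * (l / 2 + 1) / |a₁| + 1) *
      (4 * (l / 2 + 1) / (|a₂| * |g₂ - g₁|) + 1) := h0
    _ ≤ (4 * l / |a₁|) * (8 * l / (|a₂| * |g₂ - g₁|)) := by
        refine mul_le_mul h1 h2 (by positivity) (by positivity)
    _ = 32 * l ^ 2 / (|a₁| * |a₂| * |g₂ - g₁|) := by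
        rw [div_mul_div_comm]
        congr 1 <;> ring

/-- general bound for the number of coarse cells, with the larger translation in the first place -/
theorem crs_aux (Q : Finset (ℤ × ℤ)) (a₁ a₂ g₁ g₂ L T₁ T₂ : ℝ) (z : ℝ × ℝ)
    (hg₁ : |g₁| ≤ 1) (hL : 1 ≤ L) (hT : T₂ ≤ T₁) (hT₂ : 0 ≤ T₂) (hTL : L ≤ T₁)
    (hTD : L ≤ T₂ * |g₂ - g₁|)
    (h : ∀ q ∈ Q, ∃ (n : ℕ × ℕ) (z' : ℝ × ℝ), (n.1 : ℝ) * |a₁| ≤ T₁ ∧ (n.2 : ℝ) * |a₂| ≤ T₂ ∧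
      Moved a₁ a₂ g₁ g₂ z n z' ∧ cell L z' = q) :
    (Q.card : ℝ) ≤ 99 * (T₁ * T₂ * |g₂ - g₁|) / L ^ 2 := by
  have hL0 : 0 < L := by linarith
  have hT1 : 0 ≤ T₁ := by linarith
  set Dl : ℝ := |g₂ - g₁| with hDl
  have hD0 : 0 ≤ Dl := abs_nonneg _
  have h0 : (Q.card : ℝ) ≤ (2 * (2 + 2 * L + T₂ * Dl) / |L| + 1) *
      (2 * (T₁ + T₂ + 1 + L) / |L| + 1) := by
    have hswap : (Q.card : ℝ) = ((Q.map (Equiv.prodComm ℤ ℤ).toEmbedding).card : ℝ) := by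
      rw [Finset.card_map]
    rw [hswap]
    refine card_pair_le _ _ _ (by positivity) ?_ ?_
    · intro T hT'
      refine card_int_le T L z.1 (T₁ + T₂ + 1 + L) hL0.ne' (by positivity) ?_
      intro u hu
      obtain ⟨v, hv⟩ := hT' u hu
      rw [Finset.mem_map] at hv
      obtain ⟨q, hq, hqe⟩ := hv
      obtain ⟨n, z', hn1, hn2, ⟨hm1, hm2⟩, hc⟩ := h q hq
      have hqu : q.1 = u := by
        have := congrArg Prod.snd hqe
        simpa using this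
      have hc1 : ⌊z'.1 / L⌋ = u := by
        rw [← hqu]
        exact congrArg Prod.fst hc
      have h5 := abs_of_floor hL0 hc1
      have h6 : |(n.1 : ℝ) * a₁| ≤ T₁ := by
        rw [abs_mul, Nat.abs_cast]
        exact hn1
      have h7 : |(n.2 : ℝ) * a₂| ≤ T₂ := by
        rw [abs_mul, Nat.abs_cast]
        exact hn2
      rw [abs_le] at hm1 h5 h6 h7 ⊢
      constructor <;> linarith [hm1.1, hm1.2, h5.1, h5.2, h6.1, h6.2, h7.1, h7.2]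
    · intro u T hT'
      refine card_int_le T L (z.2 + g₁ * (((u : ℝ) + 1 / 2) * L - z.1)) (2 + 2 * L + T₂ * Dl)
        hL0.ne' (by positivity) ?_
      intro v hv
      have hv' := hT' v hv
      rw [Finset.mem_map] at hv'
      obtain ⟨q, hq, hqe⟩ := hv'
      obtain ⟨n, z', hn1, hn2, ⟨hm1, hm2⟩, hc⟩ := h q hq
      have hqu : q.1 = u := by
        have := congrArg Prod.snd hqe
        simpa using this
      have hqv : q.2 = v := by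
        have := congrArg Prod.fst hqe
        simpa using this
      have hc1 : ⌊z'.1 / L⌋ = u := by
        rw [← hqu]
        exact congrArg Prod.fst hc
      have hc2 : ⌊z'.2 / L⌋ = v := by
        rw [← hqv]
        exact congrArg Prod.snd hc
      have h5 := abs_of_floor hL0 hc1
      have h8 := abs_of_floor hL0 hc2
      have h7 : |(n.2 : ℝ) * a₂ * (g₂ - g₁)| ≤ T₂ * Dl := by
        rw [abs_mul, abs_mul, Nat.abs_cast]
        exact mul_le_mul_of_nonneg_right hn2 hD0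
      have h9 : |g₁ * ((z'.1 - ((u : ℝ) + 1 / 2) * L) -
          (z'.1 - (z.1 + (n.1 * a₁ + n.2 * a₂))))| ≤ L / 2 + 1 := by
        rw [abs_mul]
        calc |g₁| * |(z'.1 - ((u : ℝ) + 1 / 2) * L) -
              (z'.1 - (z.1 + (n.1 * a₁ + n.2 * a₂)))| ≤ 1 * (L / 2 + 1) := by
              refine mul_le_mul hg₁ ?_ (abs_nonneg _) zero_le_one
              exact (abs_sub _ _).trans (add_le_add h5 hm1)
          _ = L / 2 + 1 := one_mul _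
      have e : (v : ℝ) * L - (z.2 + g₁ * (((u : ℝ) + 1 / 2) * L - z.1)) =
          (z'.2 - (z.2 + (n.1 * a₁ * g₁ + n.2 * a₂ * g₂))) -
          (z'.2 - ((v : ℝ) + 1 / 2) * L) - L / 2 + n.2 * a₂ * (g₂ - g₁) +
          g₁ * ((z'.1 - ((u : ℝ) + 1 / 2) * L) -
          (z'.1 - (z.1 + (n.1 * a₁ + n.2 * a₂)))) := by ring
      rw [e]
      rw [abs_le] at hm2 h8 h7 h9 ⊢
      constructor <;> linarith [hm2.1, hm2.2, h8.1, h8.2, h7.1, h7.2, h9.1, h9.2]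
  rw [abs_of_pos hL0] at h0
  have h1 : 2 * (2 + 2 * L + T₂ * Dl) / L + 1 ≤ 11 * (T₂ * Dl) / L := by
    rw [div_add_one hL0.ne']
    refine div_le_div_of_nonneg_right ?_ hL0.le
    linarith
  have h2 : 2 * (T₁ + T₂ + 1 + L) / L + 1 ≤ 9 * T₁ / L := by
    rw [div_add_one hL0.ne']
    refine div_le_div_of_nonneg_right ?_ hL0.le
    linarith
  calc (Q.card : ℝ) ≤ (2 * (2 + 2 * L + T₂ * Dl) / L + 1) *
      (2 * (T₁ + T₂ + 1 + L) / L + 1) := h0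
    _ ≤ (11 * (T₂ * Dl) / L) * (9 * T₁ / L) :=
        mul_le_mul h1 h2 (by positivity) (by positivity)
    _ = 99 * (T₁ * T₂ * Dl) / L ^ 2 := by
        rw [div_mul_div_comm]
        congr 1 <;> ring

/-- **number of coarse cells** -/
theorem crs_le (Q : Finset (ℤ × ℤ)) (a₁ a₂ g₁ g₂ L T₁ T₂ : ℝ) (z : ℝ × ℝ)
    (hg₁ : |g₁| ≤ 1) (hg₂ : |g₂| ≤ 1) (hL : 1 ≤ L)
    (hT1 : L ≤ T₁) (hT2 : L ≤ T₂) (hD1 : L ≤ T₁ * |g₂ - g₁|) (hD2 : L ≤ T₂ * |g₂ - g₁|)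
    (h : ∀ q ∈ Q, ∃ (n : ℕ × ℕ) (z' : ℝ × ℝ), (n.1 : ℝ) * |a₁| ≤ T₁ ∧ (n.2 : ℝ) * |a₂| ≤ T₂ ∧
      Moved a₁ a₂ g₁ g₂ z n z' ∧ cell L z' = q) :
    (Q.card : ℝ) ≤ 99 * (T₁ * T₂ * |g₂ - g₁|) / L ^ 2 := by
  rcases le_total T₂ T₁ with hT | hT
  · exact crs_aux Q a₁ a₂ g₁ g₂ L T₁ T₂ z hg₁ hL hT (by linarith) hT1 hD2 h
  · have h1 := crs_aux Q a₂ a₁ g₂ g₁ L T₂ T₁ z hg₂ hL hT (by linarith) hT2
      (by rw [abs_sub_comm]; exact hD1) ?_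
    · rw [abs_sub_comm, mul_comm T₂ T₁] at h1
      exact h1
    · intro q hq
      obtain ⟨n, z', hn1, hn2, ⟨hm1, hm2⟩, hc⟩ := h q hq
      refine ⟨(n.2, n.1), z', hn2, hn1, ⟨?_, ?_⟩, hc⟩
      · rw [show z.1 + (((n.2, n.1) : ℕ × ℕ).1 * a₂ + ((n.2, n.1) : ℕ × ℕ).2 * a₁) =
          z.1 + (n.1 * a₁ + n.2 * a₂) by simp; ring]
        exact hm1
      · rw [show z.2 + (((n.2, n.1) : ℕ × ℕ).1 * a₂ * g₂ + ((n.2, n.1) : ℕ × ℕ).2 * a₁ * g₁) =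
          z.2 + (n.1 * a₁ * g₁ + n.2 * a₂ * g₂) by simp; ring]
        exact hm2

end Vale.Agent.P127.TV.Lat
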