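import Vale.Agent.P127.TV.LatHc

/-!
# P127 / TV : the lattice lemma for rectangular cells (helper881)

`lat_rect` : the law of `z` is nearly invariant under two short translations `α₁ (1, g₁)`,
`α₂ (1, g₂)`; then `H(cell l₁ × l₂ | cell L₁ × L₂) ≥ log (L₁ / l₁) + log (L₂ / l₂) - C`,
for all `1 ≤ l₁ ≤ L₁`, `1 ≤ l₂ ≤ L₂`, whatever the angle and the shapes.
-/

set_option autoImplicit false

namespace Vale.Agent.P127.TV.Lat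

open Finset Vale.Agent.P127 Vale.Agent.P127.Stk

/-- rectangular cell -/
noncomputable def rect (l₁ l₂ : ℝ) (z : ℝ × ℝ) : ℤ × ℤ := (⌊z.1 / l₁⌋, ⌊z.2 / l₂⌋)

/-- number of pairs `(n₁, n₂)` leading to a given rectangle -/
theorem fib_gen2 (S : Finset (ℕ × ℕ)) (a₁ a₂ g₁ g₂ c d r₁ r₂ : ℝ) (ha₁ : 0 < |a₁|)
    (ha₂ : 0 < |a₂|) (ha₁' : |a₁| ≤ 1) (ha₂' : |a₂| ≤ 1)
    (hg : 0 < |g₂ - g₁|) (hg₁ : |g₁| ≤ 1) (hg₂ : |g₂| ≤ 1) (hr₁ : 1 ≤ r₁) (hr₂ : 1 ≤ r₂)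
    (h : ∀ n ∈ S, |(n.1 : ℝ) * a₁ + n.2 * a₂ - c| ≤ r₁ ∧
      |(n.1 : ℝ) * a₁ * g₁ + n.2 * a₂ * g₂ - d| ≤ r₂) :
    (S.card : ℝ) ≤ 18 * (r₁ * r₂) / (|a₁| * |a₂| * |g₂ - g₁|) := by
  have hga : g₂ - g₁ ≠ 0 := abs_pos.1 hg
  set Dl : ℝ := |g₂ - g₁| with hDl
  have hDle : Dl ≤ 2 := by
    calc Dl ≤ |g₂| + |g₁| := abs_sub _ _
      _ ≤ 2 := by linarith
  have hx : 0 < |a₂| * Dl := mul_pos ha₂ hg
  have hx2 : |a₂| * Dl ≤ 2 := by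
    calc |a₂| * Dl ≤ 1 * 2 := mul_le_mul ha₂' hDle hg.le zero_le_one
      _ = 2 := by norm_num
  have hB : ∀ T : Finset ℕ, (∀ b ∈ T, ∃ a, (a, b) ∈ S) →
      (T.card : ℝ) ≤ 2 * (r₂ + |g₁| * r₁) / (|a₂| * Dl) + 1 := by
    intro T hT
    have h1 := card_nat_le T (a₂ * (g₂ - g₁)) (d - g₁ * c) (r₂ + |g₁| * r₁)
      (mul_ne_zero (abs_pos.1 ha₂) hga) (by positivity) ?_
    · rwa [abs_mul] at h1
    · intro b hb
      obtain ⟨a, ha⟩ := hT b hb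
      obtain ⟨h2, h3⟩ := h _ ha
      have h4 : (b : ℝ) * (a₂ * (g₂ - g₁)) - (d - g₁ * c) =
          ((a : ℝ) * a₁ * g₁ + b * a₂ * g₂ - d) - g₁ * ((a : ℝ) * a₁ + b * a₂ - c) := by ring
      rw [h4]
      calc |((a : ℝ) * a₁ * g₁ + b * a₂ * g₂ - d) - g₁ * ((a : ℝ) * a₁ + b * a₂ - c)|
          ≤ |(a : ℝ) * a₁ * g₁ + b * a₂ * g₂ - d| + |g₁ * ((a : ℝ) * a₁ + b * a₂ - c)| :=
            abs_sub _ _
        _ ≤ r₂ + |g₁| * r₁ := by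
            rw [abs_mul]
            exact add_le_add h3 (mul_le_mul_of_nonneg_left h2 (abs_nonneg _))
  rcases le_total (|g₁| * r₁) r₂ with hc | hc
  · have h0 := card_pair_le S (2 * r₁ / |a₁| + 1) (2 * (r₂ + |g₁| * r₁) / (|a₂| * Dl) + 1)
      (by positivity) hB ?_
    · have h1 : 2 * r₁ / |a₁| + 1 ≤ 3 * r₁ / |a₁| := by
        rw [div_add_one ha₁.ne']
        exact div_le_div_of_nonneg_right (by linarith) ha₁.le
      have h2 : 2 * (r₂ + |g₁| * r₁) / (|a₂| * Dl) + 1 ≤ 6 * r₂ / (|a₂| * Dl) := by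
        rw [div_add_one hx.ne']
        exact div_le_div_of_nonneg_right (by linarith) hx.le
      calc (S.card : ℝ) ≤ (2 * r₁ / |a₁| + 1) * (2 * (r₂ + |g₁| * r₁) / (|a₂| * Dl) + 1) := h0
        _ ≤ (3 * r₁ / |a₁|) * (6 * r₂ / (|a₂| * Dl)) :=
            mul_le_mul h1 h2 (by positivity) (by positivity)
        _ = 18 * (r₁ * r₂) / (|a₁| * |a₂| * Dl) := by
            rw [div_mul_div_comm]
            congr 1 <;> ring
    · intro b T hT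
      refine card_nat_le T a₁ (c - b * a₂) r₁ (abs_pos.1 ha₁) (by linarith) ?_
      intro a ha
      have := (h _ (hT a ha)).1
      convert this using 2
      ring
  · have hg1 : 0 < |g₁| := by
      by_contra h0
      have h1 : |g₁| ≤ 0 := not_lt.1 h0
      have h2 : |g₁| * r₁ ≤ 0 := mul_nonpos_of_nonpos_of_nonneg h1 (by linarith)
      linarith
    have hy : 0 < |a₁| * |g₁| := mul_pos ha₁ hg1
    have hy1 : |a₁| * |g₁| ≤ 1 := by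
      calc |a₁| * |g₁| ≤ 1 * 1 := mul_le_mul ha₁' hg₁ hg1.le zero_le_one
        _ = 1 := by norm_num
    have h0 := card_pair_le S (2 * r₂ / (|a₁| * |g₁|) + 1)
      (2 * (r₂ + |g₁| * r₁) / (|a₂| * Dl) + 1) (by positivity) hB ?_
    · have h1 : 2 * r₂ / (|a₁| * |g₁|) + 1 ≤ 3 * r₂ / (|a₁| * |g₁|) := by
        rw [div_add_one hy.ne']
        exact div_le_div_of_nonneg_right (by linarith) hy.le
      have h2 : 2 * (r₂ + |g₁| * r₁) / (|a₂| * Dl) + 1 ≤ 6 * (|g₁| * r₁) / (|a₂| * Dl) := by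
        rw [div_add_one hx.ne']
        exact div_le_div_of_nonneg_right (by linarith) hx.le
      calc (S.card : ℝ) ≤ (2 * r₂ / (|a₁| * |g₁|) + 1) *
          (2 * (r₂ + |g₁| * r₁) / (|a₂| * Dl) + 1) := h0
        _ ≤ (3 * r₂ / (|a₁| * |g₁|)) * (6 * (|g₁| * r₁) / (|a₂| * Dl)) :=
            mul_le_mul h1 h2 (by positivity) (by positivity)
        _ = 18 * (r₁ * r₂) / (|a₁| * |a₂| * Dl) := by
            rw [div_mul_div_comm, div_eq_div_iff (by positivity) (by positivity)]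
            ring
    · intro b T hT
      have h3 := card_nat_le T (a₁ * g₁) (d - b * a₂ * g₂) r₂
        (mul_ne_zero (abs_pos.1 ha₁) (abs_pos.1 hg1)) (by linarith) ?_
      · rwa [abs_mul] at h3
      · intro a ha
        have := (h _ (hT a ha)).2
        convert this using 2
        ring

/-- **fibres over a fine rectangle** -/
theorem fib_rect (S : Finset (ℕ × ℕ)) (a₁ a₂ g₁ g₂ l₁ l₂ : ℝ) (z : ℝ × ℝ) (q : ℤ × ℤ)
    (ha₁ : 0 < |a₁|) (ha₂ : 0 < |a₂|) (ha₁' : |a₁| ≤ 1) (ha₂' : |a₂| ≤ 1)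
    (hg : 0 < |g₂ - g₁|) (hg₁ : |g₁| ≤ 1) (hg₂ : |g₂| ≤ 1) (hl₁ : 1 ≤ l₁) (hl₂ : 1 ≤ l₂)
    (h : ∀ n ∈ S, ∃ z', Moved a₁ a₂ g₁ g₂ z n z' ∧ rect l₁ l₂ z' = q) :
    (S.card : ℝ) ≤ 41 * (l₁ * l₂) / (|a₁| * |a₂| * |g₂ - g₁|) := by
  have hl₁0 : 0 < l₁ := by linarith
  have hl₂0 : 0 < l₂ := by linarith
  have h0 := fib_gen2 S a₁ a₂ g₁ g₂ (((q.1 : ℝ) + 1 / 2) * l₁ - z.1)
    (((q.2 : ℝ) + 1 / 2) * l₂ - z.2) (l₁ / 2 + 1) (l₂ / 2 + 1) ha₁ ha₂ ha₁' ha₂' hg hg₁ hg₂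
    (by linarith) (by linarith) ?_
  · refine h0.trans (div_le_div_of_nonneg_right ?_ (by positivity))
    have h1 : l₁ / 2 + 1 ≤ 3 / 2 * l₁ := by linarith
    have h2 : l₂ / 2 + 1 ≤ 3 / 2 * l₂ := by linarith
    have h3 : (l₁ / 2 + 1) * (l₂ / 2 + 1) ≤ (3 / 2 * l₁) * (3 / 2 * l₂) :=
      mul_le_mul h1 h2 (by positivity) (by positivity)
    nlinarith [mul_pos hl₁0 hl₂0]
  · intro n hn
    obtain ⟨z', ⟨h1, h2⟩, h3⟩ := h n hn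
    have h4 := abs_of_floor hl₁0 (congrArg Prod.fst h3)
    have h5 := abs_of_floor hl₂0 (congrArg Prod.snd h3)
    rw [abs_le] at h1 h2 h4 h5 ⊢
    constructor
    · constructor <;> linarith [h1.1, h1.2, h4.1, h4.2]
    · rw [abs_le]
      constructor <;> linarith [h2.1, h2.2, h5.1, h5.2]

/-- number of coarse rectangles, with the larger translation in the first place -/
theorem crs_rect_aux (Q : Finset (ℤ × ℤ)) (a₁ a₂ g₁ g₂ L₁ L₂ T₁ T₂ : ℝ) (z : ℝ × ℝ)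
    (hg₁ : |g₁| ≤ 1) (hL₁ : 1 ≤ L₁) (hL₂ : 1 ≤ L₂) (hT : T₂ ≤ T₁) (hT₂ : 0 ≤ T₂) (hTL : L₁ ≤ T₁)
    (hTD₁ : L₁ ≤ T₂ * |g₂ - g₁|) (hTD₂ : L₂ ≤ T₂ * |g₂ - g₁|)
    (h : ∀ q ∈ Q, ∃ (n : ℕ × ℕ) (z' : ℝ × ℝ), (n.1 : ℝ) * |a₁| ≤ T₁ ∧ (n.2 : ℝ) * |a₂| ≤ T₂ ∧
      Moved a₁ a₂ g₁ g₂ z n z' ∧ rect L₁ L₂ z' = q) :
    (Q.card : ℝ) ≤ 90 * (T₁ * T₂ * |g₂ - g₁|) / (L₁ * L₂) := by
  have hL₁0 : 0 < L₁ := by linarith
  have hL₂0 : 0 < L₂ := by linarith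
  have hT1 : 0 ≤ T₁ := by linarith
  set Dl : ℝ := |g₂ - g₁| with hDl
  have hD0 : 0 ≤ Dl := abs_nonneg _
  have h0 : (Q.card : ℝ) ≤ (2 * (2 + L₂ + L₁ / 2 + T₂ * Dl) / |L₂| + 1) *
      (2 * (T₁ + T₂ + 1 + L₁) / |L₁| + 1) := by
    have hswap : (Q.card : ℝ) = ((Q.map (Equiv.prodComm ℤ ℤ).toEmbedding).card : ℝ) := by
      rw [Finset.card_map]
    rw [hswap]
    refine card_pair_le _ _ _ (by positivity) ?_ ?_
    · intro T hT'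
      refine card_int_le T L₁ z.1 (T₁ + T₂ + 1 + L₁) hL₁0.ne' (by positivity) ?_
      intro u hu
      obtain ⟨v, hv⟩ := hT' u hu
      rw [Finset.mem_map] at hv
      obtain ⟨q, hq, hqe⟩ := hv
      obtain ⟨n, z', hn1, hn2, ⟨hm1, hm2⟩, hc⟩ := h q hq
      have hqu : q.1 = u := by
        have := congrArg Prod.snd hqe
        simpa using this
      have hc1 : ⌊z'.1 / L₁⌋ = u := by
        rw [← hqu]
        exact congrArg Prod.fst hc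
      have h5 := abs_of_floor hL₁0 hc1
      have h6 : |(n.1 : ℝ) * a₁| ≤ T₁ := by
        rw [abs_mul, Nat.abs_cast]
        exact hn1
      have h7 : |(n.2 : ℝ) * a₂| ≤ T₂ := by
        rw [abs_mul, Nat.abs_cast]
        exact hn2
      rw [abs_le] at hm1 h5 h6 h7 ⊢
      constructor <;> linarith [hm1.1, hm1.2, h5.1, h5.2, h6.1, h6.2, h7.1, h7.2]
    · intro u T hT'
      refine card_int_le T L₂ (z.2 + g₁ * (((u : ℝ) + 1 / 2) * L₁ - z.1))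
        (2 + L₂ + L₁ / 2 + T₂ * Dl) hL₂0.ne' (by positivity) ?_
      intro v hv
      have hv' := hT' v hv
      rw [Finset.mem_map] at hv'
      obtain ⟨q, hq, hqe⟩ := hv'
      obtain ⟨n, z', hn1, hn2, ⟨hm1, hm2⟩, hc⟩ := h q hq
      have hqu : q.1 = u := by
        have := congrArg Prod.snd hqe
        simpa using this
      have hqv : q.2 = v := by
        have := congrArg Prod.fst hqe
        simpa using this
      have hc1 : ⌊z'.1 / L₁⌋ = u := by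
        rw [← hqu]
        exact congrArg Prod.fst hc
      have hc2 : ⌊z'.2 / L₂⌋ = v := by
        rw [← hqv]
        exact congrArg Prod.snd hc
      have h5 := abs_of_floor hL₁0 hc1
      have h8 := abs_of_floor hL₂0 hc2
      have h7 : |(n.2 : ℝ) * a₂ * (g₂ - g₁)| ≤ T₂ * Dl := by
        rw [abs_mul, abs_mul, Nat.abs_cast]
        exact mul_le_mul_of_nonneg_right hn2 hD0
      have h9 : |g₁ * ((z'.1 - ((u : ℝ) + 1 / 2) * L₁) -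
          (z'.1 - (z.1 + (n.1 * a₁ + n.2 * a₂))))| ≤ L₁ / 2 + 1 := by
        rw [abs_mul]
        calc |g₁| * |(z'.1 - ((u : ℝ) + 1 / 2) * L₁) -
              (z'.1 - (z.1 + (n.1 * a₁ + n.2 * a₂)))| ≤ 1 * (L₁ / 2 + 1) := by
              refine mul_le_mul hg₁ ?_ (abs_nonneg _) zero_le_one
              exact (abs_sub _ _).trans (add_le_add h5 hm1)
          _ = L₁ / 2 + 1 := one_mul _
      have e : (v : ℝ) * L₂ - (z.2 + g₁ * (((u : ℝ) + 1 / 2) * L₁ - z.1)) =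
          (z'.2 - (z.2 + (n.1 * a₁ * g₁ + n.2 * a₂ * g₂))) -
          (z'.2 - ((v : ℝ) + 1 / 2) * L₂) - L₂ / 2 + n.2 * a₂ * (g₂ - g₁) +
          g₁ * ((z'.1 - ((u : ℝ) + 1 / 2) * L₁) -
          (z'.1 - (z.1 + (n.1 * a₁ + n.2 * a₂)))) := by ring
      rw [e]
      rw [abs_le] at hm2 h8 h7 h9 ⊢
      constructor <;> linarith [hm2.1, hm2.2, h8.1, h8.2, h7.1, h7.2, h9.1, h9.2]
  rw [abs_of_pos hL₁0, abs_of_pos hL₂0] at h0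
  have h1 : 2 * (2 + L₂ + L₁ / 2 + T₂ * Dl) / L₂ + 1 ≤ 10 * (T₂ * Dl) / L₂ := by
    rw [div_add_one hL₂0.ne']
    refine div_le_div_of_nonneg_right ?_ hL₂0.le
    linarith
  have h2 : 2 * (T₁ + T₂ + 1 + L₁) / L₁ + 1 ≤ 9 * T₁ / L₁ := by
    rw [div_add_one hL₁0.ne']
    refine div_le_div_of_nonneg_right ?_ hL₁0.le
    linarith
  calc (Q.card : ℝ) ≤ (2 * (2 + L₂ + L₁ / 2 + T₂ * Dl) / L₂ + 1) *
      (2 * (T₁ + T₂ + 1 + L₁) / L₁ + 1) := h0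
    _ ≤ (10 * (T₂ * Dl) / L₂) * (9 * T₁ / L₁) :=
        mul_le_mul h1 h2 (by positivity) (by positivity)
    _ = 90 * (T₁ * T₂ * Dl) / (L₁ * L₂) := by
        rw [div_mul_div_comm]
        congr 1 <;> ring

/-- **number of coarse rectangles** -/
theorem crs_rect (Q : Finset (ℤ × ℤ)) (a₁ a₂ g₁ g₂ L₁ L₂ T₁ T₂ : ℝ) (z : ℝ × ℝ)
    (hg₁ : |g₁| ≤ 1) (hg₂ : |g₂| ≤ 1) (hL₁ : 1 ≤ L₁) (hL₂ : 1 ≤ L₂)
    (hT1 : L₁ ≤ T₁) (hT2 : L₁ ≤ T₂)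
    (h11 : L₁ ≤ T₁ * |g₂ - g₁|) (h12 : L₂ ≤ T₁ * |g₂ - g₁|)
    (h21 : L₁ ≤ T₂ * |g₂ - g₁|) (h22 : L₂ ≤ T₂ * |g₂ - g₁|)
    (h : ∀ q ∈ Q, ∃ (n : ℕ × ℕ) (z' : ℝ × ℝ), (n.1 : ℝ) * |a₁| ≤ T₁ ∧ (n.2 : ℝ) * |a₂| ≤ T₂ ∧
      Moved a₁ a₂ g₁ g₂ z n z' ∧ rect L₁ L₂ z' = q) :
    (Q.card : ℝ) ≤ 90 * (T₁ * T₂ * |g₂ - g₁|) / (L₁ * L₂) := by
  rcases le_total T₂ T₁ with hT | hT
  · exact crs_rect_aux Q a₁ a₂ g₁ g₂ L₁ L₂ T₁ T₂ z hg₁ hL₁ hL₂ hT (by linarith) hT1 h21 h22 h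
  · have h1 := crs_rect_aux Q a₂ a₁ g₂ g₁ L₁ L₂ T₂ T₁ z hg₂ hL₁ hL₂ hT (by linarith) hT2
      (by rw [abs_sub_comm]; exact h11) (by rw [abs_sub_comm]; exact h12) ?_
    · rw [abs_sub_comm, mul_comm T₂ T₁] at h1
      exact h1
    · intro q hq
      obtain ⟨n, z', hn1, hn2, ⟨hm1, hm2⟩, hc⟩ := h q hq
      refine ⟨(n.2, n.1), z', hn2, hn1, ⟨?_, ?_⟩, hc⟩
      · rw [show z.1 + (((n.2, n.1) : ℕ × ℕ).1 * a₂ + ((n.2, n.1) : ℕ × ℕ).2 * a₁) =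
          z.1 + (n.1 * a₁ + n.2 * a₂) by simp; ring]
        exact hm1
      · rw [show z.2 + (((n.2, n.1) : ℕ × ℕ).1 * a₂ * g₂ + ((n.2, n.1) : ℕ × ℕ).2 * a₁ * g₁) =
          z.2 + (n.1 * a₁ * g₁ + n.2 * a₂ * g₂) by simp; ring]
        exact hm2

variable {Ω : Type} [Fintype Ω]

/-- **saturation of rectangular cells from the lattice of translations** -/
theorem lat_rect_hc (P : Law Ω) (z : Ω → ℝ × ℝ) (a₁ a₂ g₁ g₂ l₁ l₂ L₁ L₂ e : ℝ) (R : ℕ)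
    (ha₁ : 0 < |a₁|) (ha₂ : 0 < |a₂|) (ha₁' : |a₁| ≤ 1) (ha₂' : |a₂| ≤ 1)
    (hg : 0 < |g₂ - g₁|) (hg₁ : |g₁| ≤ 1) (hg₂ : |g₂| ≤ 1) (hl₁ : 1 ≤ l₁) (hl₂ : 1 ≤ l₂)
    (hlL₁ : l₁ ≤ L₁) (hlL₂ : l₂ ≤ L₂)
    (hR1 : L₁ ≤ R * |a₁|) (hR2 : L₁ ≤ R * |a₂|)
    (h11 : L₁ ≤ R * |a₁| * |g₂ - g₁|) (h12 : L₂ ≤ R * |a₁| * |g₂ - g₁|)
    (h21 : L₁ ≤ R * |a₂| * |g₂ - g₁|) (h22 : L₂ ≤ R * |a₂| * |g₂ - g₁|)
    (h : ∀ n : ℕ × ℕ, n.1 < R → n.2 < R →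
      SubC P P (fun a b => Moved a₁ a₂ g₁ g₂ (z a) n (z b)) e) :
    Real.log (L₁ / l₁) + Real.log (L₂ / l₂) - Real.log 3690 - e * (1 + 2 * Real.log R) ≤
      hc P (fun ω => rect l₁ l₂ (z ω)) (fun ω => rect L₁ L₂ (z ω)) := by
  classical
  have hl₁0 : 0 < l₁ := by linarith
  have hl₂0 : 0 < l₂ := by linarith
  have hL₁0 : 0 < L₁ := by linarith
  have hL₂0 : 0 < L₂ := by linarith
  have hRpos : 0 < R := by
    rcases Nat.eq_zero_or_pos R with h0 | h0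
    · rw [h0] at hR1
      simp at hR1
      linarith
    · exact h0
  have hRr : (0 : ℝ) < R := by exact_mod_cast hRpos
  have : Nonempty (Fin R × Fin R) := ⟨(⟨0, hRpos⟩, ⟨0, hRpos⟩)⟩
  set Dl : ℝ := |g₂ - g₁| with hDl
  set x0 : ℝ := 41 * (l₁ * l₂) / (|a₁| * |a₂| * Dl) with hx0
  set x1 : ℝ := 90 * ((R * |a₁|) * (R * |a₂|) * Dl) / (L₁ * L₂) with hx1
  have hDle : Dl ≤ 2 := by
    calc Dl ≤ |g₂| + |g₁| := abs_sub _ _
      _ ≤ 2 := by linarith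
  have hden : 0 < |a₁| * |a₂| * Dl := by positivity
  have h1x0 : 1 ≤ x0 := by
    rw [hx0, le_div_iff₀ hden]
    have h1 : |a₁| * |a₂| ≤ 1 * 1 := mul_le_mul ha₁' ha₂' ha₂.le zero_le_one
    have h2 : |a₁| * |a₂| * Dl ≤ (1 * 1) * 2 := mul_le_mul h1 hDle hg.le (by norm_num)
    nlinarith
  have h1x1 : 1 ≤ x1 := by
    rw [hx1, le_div_iff₀ (by positivity)]
    have h2 : L₁ * L₂ ≤ (R * |a₁|) * (R * |a₂| * Dl) := mul_le_mul hR1 h22 hL₂0.le (by positivity)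
    nlinarith
  have key := spread P (K := Fin R × Fin R)
    (fun k a b => Moved a₁ a₂ g₁ g₂ (z a) ((k.1 : ℕ), (k.2 : ℕ)) (z b)) (fun _ => e)
    (fun k => h _ k.1.2 k.2.2) (fun ω => rect l₁ l₂ (z ω)) (fun ω => rect L₁ L₂ (z ω))
    ⌊x0⌋₊ ⌊x1⌋₊ ?_ ?_
  · have hcard : (Fintype.card (Fin R × Fin R) : ℝ) = (R : ℝ) * R := by simp
    have hsum : (∑ _k : Fin R × Fin R, e) / Fintype.card (Fin R × Fin R) = e := by
      rw [Finset.sum_const, Finset.card_univ, nsmul_eq_mul, mul_comm, mul_div_assoc, div_self,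
        mul_one]
      rw [hcard]
      positivity
    rw [hsum, hcard, Real.log_mul hRr.ne' hRr.ne'] at key
    have e0 := log_floor_le h1x0
    have e1 := log_floor_le h1x1
    have e2 : Real.log x0 + Real.log x1 =
        Real.log 3690 + (Real.log R + Real.log R) -
          (Real.log (L₁ / l₁) + Real.log (L₂ / l₂)) := by
      have e3 : x0 * x1 = 3690 * (R * R) / ((L₁ / l₁) * (L₂ / l₂)) := by
        rw [hx0, hx1]
        field_simp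
        ring
      rw [← Real.log_mul (by positivity) (by positivity), e3,
        Real.log_div (by positivity) (by positivity), Real.log_mul (by norm_num) (by positivity),
        Real.log_mul hRr.ne' hRr.ne', Real.log_mul (by positivity) (by positivity)]
    linarith
  · intro a b _ _
    refine ⟨univ.filter fun k : Fin R × Fin R => ∃ b', Moved a₁ a₂ g₁ g₂ (z a)
      ((k.1 : ℕ), (k.2 : ℕ)) (z b') ∧ rect l₁ l₂ (z b') = rect l₁ l₂ (z b), ?_, ?_⟩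
    · refine Nat.le_floor ?_
      set S : Finset (Fin R × Fin R) := univ.filter fun k : Fin R × Fin R =>
        ∃ b', Moved a₁ a₂ g₁ g₂ (z a) ((k.1 : ℕ), (k.2 : ℕ)) (z b') ∧
          rect l₁ l₂ (z b') = rect l₁ l₂ (z b) with hS
      have hinj : Function.Injective (fun k : Fin R × Fin R => ((k.1 : ℕ), (k.2 : ℕ))) := by
        intro k k' hk
        simp only [Prod.mk.injEq] at hk
        exact Prod.ext (Fin.ext hk.1) (Fin.ext hk.2)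
      have hc : (S.card : ℝ) = ((S.image fun k : Fin R × Fin R =>
          ((k.1 : ℕ), (k.2 : ℕ))).card : ℝ) := by
        rw [Finset.card_image_of_injective _ hinj]
      rw [hc]
      refine fib_rect _ a₁ a₂ g₁ g₂ l₁ l₂ (z a) (rect l₁ l₂ (z b)) ha₁ ha₂ ha₁' ha₂' hg hg₁ hg₂
        hl₁ hl₂ ?_
      intro n hn
      rw [Finset.mem_image] at hn
      obtain ⟨k, hk, rfl⟩ := hn
      rw [hS, Finset.mem_filter] at hk
      obtain ⟨b', h1, h2⟩ := hk.2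
      exact ⟨z b', h1, h2⟩
    · intro k b' _ hk hf
      rw [Finset.mem_filter]
      exact ⟨Finset.mem_univ _, b', hk, hf⟩
  · intro a _
    refine ⟨(univ.filter fun b : Ω => ∃ k : Fin R × Fin R, Moved a₁ a₂ g₁ g₂ (z a)
      ((k.1 : ℕ), (k.2 : ℕ)) (z b)).image fun b => rect L₁ L₂ (z b), ?_, ?_⟩
    · refine Nat.le_floor ?_
      refine crs_rect _ a₁ a₂ g₁ g₂ L₁ L₂ (R * |a₁|) (R * |a₂|) (z a) hg₁ hg₂ (hl₁.trans hlL₁)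
        (hl₂.trans hlL₂) hR1 hR2 h11 h12 h21 h22 ?_
      intro q hq
      rw [Finset.mem_image] at hq
      obtain ⟨b, hb, rfl⟩ := hq
      rw [Finset.mem_filter] at hb
      obtain ⟨k, hk⟩ := hb.2
      refine ⟨((k.1 : ℕ), (k.2 : ℕ)), z b, ?_, ?_, hk, rfl⟩
      · have : ((k.1 : ℕ) : ℝ) ≤ R := by exact_mod_cast k.1.2.le
        exact mul_le_mul_of_nonneg_right this ha₁.le
      · have : ((k.2 : ℕ) : ℝ) ≤ R := by exact_mod_cast k.2.2.le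
        exact mul_le_mul_of_nonneg_right this ha₂.le
    · intro k b _ hk
      rw [Finset.mem_image]
      exact ⟨b, by rw [Finset.mem_filter]; exact ⟨Finset.mem_univ _, k, hk⟩, rfl⟩

/-- **saturation of rectangular cells from two single steps** -/
theorem lat_rect (P : Law Ω) (z : Ω → ℝ × ℝ) (a₁ a₂ g₁ g₂ l₁ l₂ L₁ L₂ ρ e₁ e₂ : ℝ) (R : ℕ)
    (ha₁ : 0 < |a₁|) (ha₂ : 0 < |a₂|) (ha₁' : |a₁| ≤ 1) (ha₂' : |a₂| ≤ 1)
    (hg : 0 < |g₂ - g₁|) (hg₁ : |g₁| ≤ 1) (hg₂ : |g₂| ≤ 1) (hl₁ : 1 ≤ l₁) (hl₂ : 1 ≤ l₂)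
    (hlL₁ : l₁ ≤ L₁) (hlL₂ : l₂ ≤ L₂)
    (hR1 : L₁ ≤ R * |a₁|) (hR2 : L₁ ≤ R * |a₂|)
    (h11 : L₁ ≤ R * |a₁| * |g₂ - g₁|) (h12 : L₂ ≤ R * |a₁| * |g₂ - g₁|)
    (h21 : L₁ ≤ R * |a₂| * |g₂ - g₁|) (h22 : L₂ ≤ R * |a₂| * |g₂ - g₁|)
    (hρ : 0 ≤ ρ) (hRρ : 2 * R * ρ ≤ 1) (he₁ : 0 ≤ e₁) (he₂ : 0 ≤ e₂)
    (h₁ : SubC P P (fun a b => Step a₁ g₁ ρ (z a) (z b)) e₁)
    (h₂ : SubC P P (fun a b => Step a₂ g₂ ρ (z a) (z b)) e₂) :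
    Real.log (L₁ / l₁) + Real.log (L₂ / l₂) - Real.log 3690 -
        R * (e₁ + e₂) * (1 + 2 * Real.log R) ≤
      hc P (fun ω => rect l₁ l₂ (z ω)) (fun ω => rect L₁ L₂ (z ω)) := by
  refine lat_rect_hc P z a₁ a₂ g₁ g₂ l₁ l₂ L₁ L₂ (R * (e₁ + e₂)) R ha₁ ha₂ ha₁' ha₂' hg hg₁ hg₂
    hl₁ hl₂ hlL₁ hlL₂ hR1 hR2 h11 h12 h21 h22 ?_
  intro n hn1 hn2
  have i1 := h₁.iter (fun k a b => StepN a₁ g₁ ρ k (z a) (z b))
    (fun a => by simp [StepN]) (fun k a b c h h' => h.succ h') n.1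
  have i2 := h₂.iter (fun k a b => StepN a₂ g₂ ρ k (z a) (z b))
    (fun a => by simp [StepN]) (fun k a b c h h' => h.succ h') n.2
  have hn1' : (n.1 : ℝ) ≤ R := by exact_mod_cast hn1.le
  have hn2' : (n.2 : ℝ) ≤ R := by exact_mod_cast hn2.le
  refine (i1.comp i2).mono ?_ ?_
  · rintro a c ⟨b, ⟨h1, h2⟩, h3, h4⟩
    have hb1 : (n.1 : ℝ) * ρ ≤ R * ρ := mul_le_mul_of_nonneg_right hn1' hρ
    have hb2 : (n.2 : ℝ) * ρ ≤ R * ρ := mul_le_mul_of_nonneg_right hn2' hρ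
    unfold Moved
    rw [abs_le] at h1 h2 h3 h4 ⊢
    rw [abs_le]
    refine ⟨⟨?_, ?_⟩, ?_, ?_⟩ <;> linarith [h1.1, h1.2, h2.1, h2.2, h3.1, h3.2, h4.1, h4.2]
  · have := mul_le_mul_of_nonneg_right hn1' he₁
    have := mul_le_mul_of_nonneg_right hn2' he₂
    linarith

end Vale.Agent.P127.TV.Lat
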