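import Vale.Agent.P127.TV.MStepB

/-!
# P127 / TV : the M-step for exact real positions (no rounding of the window)

The positions `pi` are exact real vectors attached to `ω`; the cell `E` and the window `W` determine
them up to a small error. Nothing is required to be a function of anything else.
-/

namespace Vale.Agent.P127.TV

open Finset Vale.Agent.P127 Vale.Agent.P127.Stk Vale.Agent.P127.U.Pin

variable {Ω : Type} [Fintype Ω] {ι : Type*} {S T U V F G Z X : Type*}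

/-- change of law in an average -/
theorem ex_le_dl (R Q : Law Ω) (Y : Ω → S) (f : S → ℝ) (M : ℝ) (hf : ∀ x, |f x| ≤ M) :
    R.ex (fun ω => f (Y ω)) ≤ Q.ex (fun ω => f (Y ω)) + M * dl Q Y R Y := by
  have := ex_sub_le_dl R Y Q Y f M hf
  rw [dl_symm R Y] at this
  linarith [(abs_le.1 this).2]

/-- conditioning two laws on a function of `W`: average distance -/
theorem cond_dl (Q R : Law Ω) (W : Ω → S) (e : S → X) :
    R.ex (fun ω => dl (Q.cond (fun ω => e (W ω)) (e (W ω))) W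
      (R.cond (fun ω => e (W ω)) (e (W ω))) W) ≤ 4 * dl Q W R W := by
  classical
  set e' : Ω → X := fun ω => e (W ω) with he'
  have hcomp : R.ex (fun ω => dl (Q.cond e' (e' ω)) W (R.cond e' (e' ω)) W) =
      ∑ x ∈ img e', R.pr e' x * dl (Q.cond e' x) W (R.cond e' x) W :=
    R.ex_comp e' (fun x => dl (Q.cond e' x) W (R.cond e' x) W)
  show R.ex (fun ω => dl (Q.cond e' (e' ω)) W (R.cond e' (e' ω)) W) ≤ _
  rw [hcomp]
  -- the mass of the values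
  have hM : ∑ x ∈ img e', |Q.pr e' x - R.pr e' x| ≤ dl Q W R W :=
    (sum_le_dl Q e' R e' (img e')).trans (dl_map Q W R W e)
  -- each value
  have hx : ∀ x ∈ img e', R.pr e' x * dl (Q.cond e' x) W (R.cond e' x) W ≤
      ∑ w ∈ img W, (if e w = x then |Q.pr W w - R.pr W w| else 0) +
        3 * |Q.pr e' x - R.pr e' x| := by
    intro x _
    have hs0 : 0 ≤ ∑ w ∈ img W, (if e w = x then |Q.pr W w - R.pr W w| else 0) :=
      Finset.sum_nonneg fun w _ => by split_ifs <;> positivity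
    rcases (R.pr_nonneg e' x).eq_or_lt with hR0 | hR0
    · rw [← hR0, zero_mul]
      positivity
    rcases (Q.pr_nonneg e' x).eq_or_lt with hQ0 | hQ0
    · have h2 := dl_le_two (Q.cond e' x) W (R.cond e' x) W
      have h3 : |Q.pr e' x - R.pr e' x| = R.pr e' x := by
        rw [← hQ0, zero_sub, abs_neg, abs_of_pos hR0]
      rw [h3]
      nlinarith
    · -- both positive
      have hp : ∀ (L : Law Ω), 0 < L.pr e' x → ∀ w, (L.cond e' x).pr W w =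
          (if e w = x then L.pr W w else 0) / L.pr e' x := by
        intro L hL w
        rw [L.cond_pr e' x hL]
        congr 1
        split_ifs with hc
        · unfold Law.pr
          refine Finset.sum_congr ?_ fun _ _ => rfl
          ext ω
          simp only [Finset.mem_filter, mem_univ, true_and, Prod.mk.injEq]
          constructor
          · exact fun h => h.1
          · rintro rfl
            exact ⟨rfl, hc⟩
        · unfold Law.pr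
          refine Finset.sum_eq_zero fun ω hω => ?_
          simp only [Finset.mem_filter, mem_univ, true_and, Prod.mk.injEq] at hω
          exact absurd (hω.1 ▸ hω.2) hc
      have hdl : dl (Q.cond e' x) W (R.cond e' x) W =
          ∑ w ∈ img W, |(Q.cond e' x).pr W w - (R.cond e' x).pr W w| := by
        refine dl_eq_sum _ _ _ _ _ fun w hw => ?_
        exact ⟨pr_zero_of_not_img _ _ hw, pr_zero_of_not_img _ _ hw⟩
      rw [hdl, Finset.mul_sum]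
      have hw : ∀ w ∈ img W, R.pr e' x * |(Q.cond e' x).pr W w - (R.cond e' x).pr W w| ≤
          (if e w = x then |Q.pr W w - R.pr W w| else 0) +
            |Q.pr e' x - R.pr e' x| * (Q.cond e' x).pr W w := by
        intro w _
        have hq : 0 ≤ (Q.cond e' x).pr W w := Law.pr_nonneg _ _ _
        have e1 : R.pr e' x * |(Q.cond e' x).pr W w - (R.cond e' x).pr W w| =
            |R.pr e' x * ((Q.cond e' x).pr W w - (R.cond e' x).pr W w)| := by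
          rw [abs_mul, abs_of_pos hR0]
        rw [e1]
        have e2 : R.pr e' x * ((Q.cond e' x).pr W w - (R.cond e' x).pr W w) =
            ((if e w = x then Q.pr W w else 0) - (if e w = x then R.pr W w else 0)) -
              (Q.pr e' x - R.pr e' x) * (Q.cond e' x).pr W w := by
          have e3 : Q.pr e' x * (Q.cond e' x).pr W w = if e w = x then Q.pr W w else 0 := by
            rw [hp Q hQ0, mul_div_cancel₀ _ hQ0.ne']
          have e4 : R.pr e' x * (R.cond e' x).pr W w = if e w = x then R.pr W w else 0 := by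
            rw [hp R hR0, mul_div_cancel₀ _ hR0.ne']
          rw [mul_sub, e4]
          linarith
        rw [e2]
        refine (abs_sub _ _).trans (add_le_add (le_of_eq ?_) (le_of_eq ?_))
        · split_ifs
          · rfl
          · simp
        · rw [abs_mul, abs_of_nonneg hq]
      refine (Finset.sum_le_sum hw).trans ?_
      rw [Finset.sum_add_distrib, ← Finset.mul_sum]
      have h5 : ∑ w ∈ img W, (Q.cond e' x).pr W w ≤ 1 := sum_pr_le_one _ _ _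
      have h6 : |Q.pr e' x - R.pr e' x| * ∑ w ∈ img W, (Q.cond e' x).pr W w ≤
          |Q.pr e' x - R.pr e' x| := mul_le_of_le_one_right (abs_nonneg _) h5
      have h7 := abs_nonneg (Q.pr e' x - R.pr e' x)
      linarith
  refine (Finset.sum_le_sum hx).trans ?_
  rw [Finset.sum_add_distrib, ← Finset.mul_sum]
  have h8 : ∑ x ∈ img e', ∑ w ∈ img W, (if e w = x then |Q.pr W w - R.pr W w| else 0) ≤
      dl Q W R W := by
    rw [Finset.sum_comm]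
    refine le_trans (Finset.sum_le_sum fun w _ => ?_) (sum_le_dl Q W R W (img W))
    rw [Finset.sum_ite_eq]
    split_ifs
    · exact le_rfl
    · exact abs_nonneg _
  linarith

/-! ### the chain of five sub-couplings -/

open Classical in
/-- `1` if the value has probability zero -/
noncomputable def zr (Q : Law Ω) (e' : Ω → X) (x : X) : ℝ := if 0 < Q.pr e' x then 0 else 1

lemma zr_nonneg (Q : Law Ω) (e' : Ω → X) (x : X) : 0 ≤ zr Q e' x := by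
  unfold zr; split_ifs <;> norm_num

lemma zr_le_one (Q : Law Ω) (e' : Ω → X) (x : X) : zr Q e' x ≤ 1 := by
  unfold zr; split_ifs <;> norm_num

/-- the error of the chain -/
noncomputable def erC (Q Q₁ : Law Ω) (W : Ω → S) (E : Ω → Z) (e' : Ω → X) (x x' : X) : ℝ :=
  (dl (Q.cond e' x) E Q E + dl (Q.cond e' x) W (Q₁.cond e' x) W +
    dl (Q₁.cond e' x) E (Q₁.cond e' x') E + dl (Q₁.cond e' x') W (Q.cond e' x') W +
    dl (Q.cond e' x') E Q E) / 2 +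
  (zr Q e' x + zr Q e' x' + zr Q₁ e' x + zr Q₁ e' x')

lemma erC_nonneg (Q Q₁ : Law Ω) (W : Ω → S) (E : Ω → Z) (e' : Ω → X) (x x' : X) :
    0 ≤ erC Q Q₁ W E e' x x' := by
  unfold erC
  have h1 := dl_nonneg (Q.cond e' x) E Q E
  have h2 := dl_nonneg (Q.cond e' x) W (Q₁.cond e' x) W
  have h3 := dl_nonneg (Q₁.cond e' x) E (Q₁.cond e' x') E
  have h4 := dl_nonneg (Q₁.cond e' x') W (Q.cond e' x') W
  have h5 := dl_nonneg (Q.cond e' x') E Q E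
  have z1 := zr_nonneg Q e' x
  have z2 := zr_nonneg Q e' x'
  have z3 := zr_nonneg Q₁ e' x
  have z4 := zr_nonneg Q₁ e' x'
  linarith

theorem chain5 (Q Q₁ : Law Ω) (W : Ω → S) (E : Ω → Z) (e' : Ω → X) (x x' : X) :
    SubC Q Q (fun a b => ∃ a₁ a₂ a₃ a₄, 0 < Q.w a ∧ 0 < Q.w a₁ ∧ 0 < Q₁.w a₂ ∧ 0 < Q₁.w a₃ ∧
      0 < Q.w a₄ ∧ 0 < Q.w b ∧ E a = E a₁ ∧ W a₁ = W a₂ ∧ E a₂ = E a₃ ∧ W a₃ = W a₄ ∧
      E a₄ = E b ∧ e' a₁ = x ∧ e' a₄ = x') (erC Q Q₁ W E e' x x') := by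
  classical
  have n1 := dl_nonneg (Q.cond e' x) E Q E
  have n2 := dl_nonneg (Q.cond e' x) W (Q₁.cond e' x) W
  have n3 := dl_nonneg (Q₁.cond e' x) E (Q₁.cond e' x') E
  have n4 := dl_nonneg (Q₁.cond e' x') W (Q.cond e' x') W
  have n5 := dl_nonneg (Q.cond e' x') E Q E
  have z1 := zr_nonneg Q e' x
  have z2 := zr_nonneg Q e' x'
  have z3 := zr_nonneg Q₁ e' x
  have z4 := zr_nonneg Q₁ e' x'
  by_cases hx : 0 < Q.pr e' x
  swap
  · refine SubC.triv ?_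
    have : zr Q e' x = 1 := if_neg hx
    unfold erC
    linarith
  by_cases hx' : 0 < Q.pr e' x'
  swap
  · refine SubC.triv ?_
    have : zr Q e' x' = 1 := if_neg hx'
    unfold erC
    linarith
  by_cases hy : 0 < Q₁.pr e' x
  swap
  · refine SubC.triv ?_
    have : zr Q₁ e' x = 1 := if_neg hy
    unfold erC
    linarith
  by_cases hy' : 0 < Q₁.pr e' x'
  swap
  · refine SubC.triv ?_
    have : zr Q₁ e' x' = 1 := if_neg hy'
    unfold erC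
    linarith
  have h1 := (SubC.of_dl Q E (Q.cond e' x) E).pos
  have h2 := (SubC.of_dl (Q.cond e' x) W (Q₁.cond e' x) W).pos
  have h3 := (SubC.of_dl (Q₁.cond e' x) E (Q₁.cond e' x') E).pos
  have h4 := (SubC.of_dl (Q₁.cond e' x') W (Q.cond e' x') W).pos
  have h5 := (SubC.of_dl (Q.cond e' x') E Q E).pos
  refine ((((h1.comp h2).comp h3).comp h4).comp h5).mono ?_ ?_
  · rintro a b ⟨a₄, ⟨a₃, ⟨a₂, ⟨a₁, ⟨p1, _, q1⟩, ⟨p2, p3, q2⟩⟩, ⟨_, p4, q3⟩⟩, ⟨_, p5, q4⟩⟩,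
      ⟨_, p6, q5⟩⟩
    exact ⟨a₁, a₂, a₃, a₄, p1, (cond_supp Q e' hx p2).2, (cond_supp Q₁ e' hy p3).2,
      (cond_supp Q₁ e' hy' p4).2, (cond_supp Q e' hx' p5).2, p6, q1, q2, q3, q4, q5,
      (cond_supp Q e' hx p2).1, (cond_supp Q e' hx' p5).1⟩
  · unfold erC
    rw [dl_symm Q E]
    linarith

/-- the average error of the chain -/
theorem chain5_err (Q Q₁ R : Law Ω) (W : Ω → S) (E : Ω → Z) (e : S → X) :
    R.ex (fun ω => R.ex (fun ω' => erC Q Q₁ W E (fun a => e (W a)) (e (W ω)) (e (W ω')))) ≤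
      il Q (fun a => e (W a)) E + il Q₁ (fun a => e (W a)) E + 8 * dl Q W R W +
        8 * dl Q₁ W R W := by
  classical
  set e' : Ω → X := fun a => e (W a) with he'
  -- averages of the pieces
  have hA : ∀ L : Law Ω, R.ex (fun ω => dl (L.cond e' (e' ω)) E L E) ≤
      il L e' E + 2 * dl L W R W := by
    intro L
    have h1 := ex_le_dl R L e' (fun x => dl (L.cond e' x) E L E) 2 (fun x => by
      rw [abs_of_nonneg (dl_nonneg _ _ _ _)]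
      exact dl_le_two _ _ _ _)
    have h2 := il_eq_ex L e' E
    have h3 := dl_map L W R W e
    have h4 : dl L e' R e' ≤ dl L W R W := h3
    linarith
  have hz : ∀ L : Law Ω, R.ex (fun ω => zr L e' (e' ω)) ≤ dl L W R W := by
    intro L
    have h1 := ex_le_dl R L e' (fun x => zr L e' x) 1 (fun x => by
      rw [abs_of_nonneg (zr_nonneg _ _ _)]
      exact zr_le_one _ _ _)
    have h2 : L.ex (fun ω => zr L e' (e' ω)) = 0 := by
      have : L.ex (fun ω => zr L e' (e' ω)) = L.ex (fun _ => 0) := by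
        refine L.ex_congr fun ω hω => ?_
        unfold zr
        rw [if_pos (L.pr_pos e' hω)]
      rw [this, L.ex_const]
    have h4 : dl L e' R e' ≤ dl L W R W := dl_map L W R W e
    linarith
  have hB : R.ex (fun ω => dl (Q.cond e' (e' ω)) W (Q₁.cond e' (e' ω)) W) ≤
      4 * dl Q W R W + 4 * dl Q₁ W R W := by
    have h1 := cond_dl Q R W e
    have h2 := cond_dl Q₁ R W e
    have h3 : R.ex (fun ω => dl (Q.cond e' (e' ω)) W (Q₁.cond e' (e' ω)) W) ≤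
        R.ex (fun ω => dl (Q.cond e' (e' ω)) W (R.cond e' (e' ω)) W +
          dl (Q₁.cond e' (e' ω)) W (R.cond e' (e' ω)) W) := by
      refine R.ex_mono fun ω _ => ?_
      have := dl_tri (Q.cond e' (e' ω)) W (R.cond e' (e' ω)) W (Q₁.cond e' (e' ω)) W
      rw [dl_symm (R.cond e' (e' ω)) W] at this
      exact this
    rw [R.ex_add] at h3
    exact h3.trans (add_le_add h1 h2)
  -- pointwise bound
  have hpt : ∀ ω ω', erC Q Q₁ W E e' (e' ω) (e' ω') ≤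
      (1 / 2 : ℝ) * ((dl (Q.cond e' (e' ω)) E Q E + dl (Q.cond e' (e' ω)) W (Q₁.cond e' (e' ω)) W +
        dl (Q₁.cond e' (e' ω)) E Q₁ E) + (dl (Q.cond e' (e' ω')) E Q E +
        dl (Q.cond e' (e' ω')) W (Q₁.cond e' (e' ω')) W + dl (Q₁.cond e' (e' ω')) E Q₁ E)) +
      ((zr Q e' (e' ω) + zr Q₁ e' (e' ω)) + (zr Q e' (e' ω') + zr Q₁ e' (e' ω'))) := by
    intro ω ω'
    have h1 := dl_tri (Q₁.cond e' (e' ω)) E Q₁ E (Q₁.cond e' (e' ω')) E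
    rw [dl_symm Q₁ E] at h1
    have h2 := dl_symm (Q₁.cond e' (e' ω')) W (Q.cond e' (e' ω')) W
    unfold erC
    rw [h2]
    linarith
  have hfin : R.ex (fun ω => R.ex (fun ω' => erC Q Q₁ W E e' (e' ω) (e' ω'))) ≤
      R.ex (fun ω => R.ex (fun ω' =>
      (1 / 2 : ℝ) * ((dl (Q.cond e' (e' ω)) E Q E + dl (Q.cond e' (e' ω)) W (Q₁.cond e' (e' ω)) W +
        dl (Q₁.cond e' (e' ω)) E Q₁ E) + (dl (Q.cond e' (e' ω')) E Q E +
        dl (Q.cond e' (e' ω')) W (Q₁.cond e' (e' ω')) W + dl (Q₁.cond e' (e' ω')) E Q₁ E)) +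
      ((zr Q e' (e' ω) + zr Q₁ e' (e' ω)) + (zr Q e' (e' ω') + zr Q₁ e' (e' ω'))))) :=
    R.ex_mono fun ω _ => R.ex_mono fun ω' _ => hpt ω ω'
  refine hfin.trans ?_
  simp only [R.ex_add, R.ex_const_mul, R.ex_const]
  have a1 := hA Q
  have a2 := hA Q₁
  have b1 := hz Q
  have b2 := hz Q₁
  linarith

/-- the displacement produced by the chain -/
theorem chain_tr (Q Q₁ : Law Ω) (W : Ω → S) (E : Ω → Z) (e' : Ω → ℝ) (x x' : ℝ)
    (pi be : Ω → ι → ℝ) (g h c : ι → ℝ)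
    (h1 : ∀ a b, 0 < Q.w a → 0 < Q.w b → E a = E b → ∀ i, |pi a i - pi b i| ≤ c i)
    (h1' : ∀ a b, 0 < Q₁.w a → 0 < Q₁.w b → E a = E b → ∀ i, |be a i - be b i| ≤ c i)
    (h2 : ∀ a b, 0 < Q.w a → 0 < Q₁.w b → W a = W b →
      ∀ i, |be b i - pi a i - (e' a * g i + h i)| ≤ c i) :
    Tr Q pi (fun i => (x - x') * g i) (fun i => 5 * c i) (erC Q Q₁ W E e' x x') := by
  refine (chain5 Q Q₁ W E e' x x').mono ?_ le_rfl
  rintro a b ⟨a₁, a₂, a₃, a₄, p0, p1, p2, p3, p4, p5, q1, q2, q3, q4, q5, q6, q7⟩ i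
  have k1 := h1 a a₁ p0 p1 q1 i
  have k2 := h2 a₁ a₂ p1 p2 q2 i
  have k3 := h1' a₂ a₃ p2 p3 q3 i
  have k4 := h2 a₄ a₃ p4 p3 q4.symm i
  have k5 := h1 a₄ b p4 p5 q5 i
  rw [q6] at k2
  rw [q7] at k4
  have e1 : pi b i - pi a i - (x - x') * g i =
      -(pi a₄ i - pi b i) + (-(be a₃ i - pi a₄ i - (x' * g i + h i))) + (-(be a₂ i - be a₃ i)) +
        (be a₂ i - pi a₁ i - (x * g i + h i)) + (-(pi a i - pi a₁ i)) := by ring
  rw [e1]
  refine (abs_add_le _ _).trans ?_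
  have l1 := abs_add_le (-(pi a₄ i - pi b i) + (-(be a₃ i - pi a₄ i - (x' * g i + h i))) +
    (-(be a₂ i - be a₃ i))) (be a₂ i - pi a₁ i - (x * g i + h i))
  have l2 := abs_add_le (-(pi a₄ i - pi b i) + (-(be a₃ i - pi a₄ i - (x' * g i + h i))))
    (-(be a₂ i - be a₃ i))
  have l3 := abs_add_le (-(pi a₄ i - pi b i)) (-(be a₃ i - pi a₄ i - (x' * g i + h i)))
  rw [abs_neg] at l2 l3 ⊢
  rw [abs_neg] at l3
  linarith

/-! ### the M-step -/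

section main

variable (P : Law Ω) (D : Ω → U) (Θ : Ω → V) (W : Ω → S) (E : Ω → Z) (e : U → S → ℝ)
    (pi : Ω → ι → ℝ) (be : V → Ω → ι → ℝ) (g h : U → V → V → ι → ℝ) (c : ι → ℝ)

/-- the hypotheses on the exact positions -/
structure Geo : Prop where
  h1 : ∀ a b, 0 < P.w a → 0 < P.w b → D a = D b → Θ a = Θ b → E a = E b →
    ∀ i, |pi a i - pi b i| ≤ c i
  h1' : ∀ o a b, 0 < P.w o → 0 < P.w a → 0 < P.w b → D o = D a → D a = D b → Θ a = Θ b →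
    E a = E b → ∀ i, |be (Θ o) a i - be (Θ o) b i| ≤ c i
  h2 : ∀ a b, 0 < P.w a → 0 < P.w b → D a = D b → W a = W b →
    ∀ i, |be (Θ a) b i - pi a i - (e (D a) (W a) * g (D a) (Θ a) (Θ b) i +
      h (D a) (Θ a) (Θ b) i)| ≤ c i

/-- the pointwise form: average weight `av`, average error `er` -/
theorem mstepC_pt (geo : Geo P D Θ W E e pi be g h c)
    (χ : U → V → V → V → ℝ → ℝ → ℝ) (hχ0 : ∀ d θ θ₂ θ₃ x x', 0 ≤ χ d θ θ₂ θ₃ x x')
    (hχ1 : ∀ d θ θ₂ θ₃ x x', χ d θ θ₂ θ₃ x x' ≤ 1)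
    (fine : U → V → (ι → ℝ) → F) (coarse : U → V → (ι → ℝ) → G) (Φ N : ℝ) (hN : 0 ≤ N)
    (hsat : ∀ d θ θ₂ θ₃ x x', 0 < χ d θ θ₂ θ₃ x x' → ∀ (Q : Law Ω) (X : Ω → ι → ℝ) (ε₁ ε₂ : ℝ),
      Tr Q X (fun i => (x - x') * g d θ θ₂ i) (fun i => 5 * c i) ε₁ →
      Tr Q X (fun i => (x - x') * g d θ θ₃ i) (fun i => 5 * c i) ε₂ →
      Φ - N * (ε₁ + ε₂) ≤ hc Q (fun ω => fine d θ (X ω)) (fun ω => coarse d θ (X ω))) :
    ∃ er : Ω → ℝ, (∀ ω, 0 ≤ er ω) ∧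
      P.ex er ≤ 16 * Real.sqrt (mi P (fun ω => e (D ω) (W ω)) E (fun ω => (D ω, Θ ω))) +
        128 * Real.sqrt (mi P Θ W D) ∧
      ∀ ω, 0 < P.w ω →
        (P.cond D (D ω)).ex (fun ω₂ => (P.cond D (D ω)).ex (fun ω₃ =>
          (P.cond D (D ω)).ex (fun ω₄ => (P.cond D (D ω)).ex (fun ω₅ =>
          χ (D ω) (Θ ω) (Θ ω₂) (Θ ω₃) (e (D ω) (W ω₄)) (e (D ω) (W ω₅)))))) * Φ - N * er ω ≤
        (P.cond D (D ω)).ex (fun ω₂ => (P.cond D (D ω)).ex (fun ω₃ =>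
          (P.cond D (D ω)).ex (fun ω₄ => (P.cond D (D ω)).ex (fun ω₅ =>
          χ (D ω) (Θ ω) (Θ ω₂) (Θ ω₃) (e (D ω) (W ω₄)) (e (D ω) (W ω₅)))))) *
        hc (P.cond (fun ω => (D ω, Θ ω)) (D ω, Θ ω)) (fun ω => fine (D ω) (Θ ω) (pi ω))
          (fun ω => coarse (D ω) (Θ ω) (pi ω)) := by
  classical
  -- abbreviations
  let Dt : Ω → U × V := fun ω => (D ω, Θ ω)
  let J : Ω → ℝ := fun ω => il (P.cond Dt (Dt ω)) (fun ω' => e (D ω) (W ω')) E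
  let K : Ω → ℝ := fun ω => dl (P.cond Dt (Dt ω)) W (P.cond D (D ω)) W
  have hJ0 : ∀ ω, 0 ≤ J ω := fun ω => il_nonneg _ _ _
  have hK0 : ∀ ω, 0 ≤ K ω := fun ω => dl_nonneg _ _ _ _
  have hDt : ∀ ω, 0 < P.w ω → ∀ ω', 0 < (P.cond Dt (Dt ω)).w ω' →
      D ω' = D ω ∧ Θ ω' = Θ ω ∧ 0 < P.w ω' := fun ω hω ω' h' => by
    have h1 := cond_supp P Dt (P.pr_pos Dt hω) h'
    exact ⟨(Prod.mk.inj h1.1).1, (Prod.mk.inj h1.1).2, h1.2⟩
  have hJ : P.ex J ≤ 4 * Real.sqrt (mi P (fun ω => e (D ω) (W ω)) E (fun ω => (D ω, Θ ω))) := by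
    refine le_trans (le_of_eq ?_) (pin_il P (fun ω => e (D ω) (W ω)) E Dt)
    refine P.ex_congr fun ω hω => ?_
    simp only [J]
    rw [il_eq_ex, il_eq_ex]
    refine Law.ex_congr _ fun ω' h' => ?_
    have hD' := (hDt ω hω ω' h').1
    rw [hD']
    refine dl_pr_congr _ _ _ _ _ _ _ _ (fun y => ?_) fun _ => rfl
    have q1 : 0 < (P.cond Dt (Dt ω)).pr (fun a => e (D ω) (W a)) (e (D ω) (W ω')) :=
      Law.pr_pos _ (fun a => e (D ω) (W a)) h'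
    have q2 : 0 < (P.cond Dt (Dt ω)).pr (fun a => e (D a) (W a)) (e (D ω) (W ω')) := by
      have := Law.pr_pos _ (fun a => e (D a) (W a)) h'
      rwa [hD'] at this
    rw [Law.cond_pr _ _ _ q1, Law.cond_pr _ _ _ q2]
    congr 1
    · refine pr_congr _ (fun a ha => ?_) _
      rw [(hDt ω hω a ha).1]
    · refine pr_congr _ (fun a ha => ?_) _
      rw [(hDt ω hω a ha).1]
  have hK : P.ex K ≤ 4 * Real.sqrt (mi P Θ W D) := pin_dl P Θ W D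
  have hJ2 : P.ex (fun ω => (P.cond D (D ω)).ex J) = P.ex J := ex_cond P D J
  have hK2 : P.ex (fun ω => (P.cond D (D ω)).ex K) = P.ex K := ex_cond P D K
  refine ⟨fun ω => 2 * J ω + 2 * (P.cond D (D ω)).ex J + 16 * K ω + 16 * (P.cond D (D ω)).ex K,
    fun ω => ?_, ?_, ?_⟩
  · have a1 := hJ0 ω
    have a2 := hK0 ω
    have a3 : 0 ≤ (P.cond D (D ω)).ex J := Law.ex_nonneg _ fun ω' _ => hJ0 ω'
    have a4 : 0 ≤ (P.cond D (D ω)).ex K := Law.ex_nonneg _ fun ω' _ => hK0 ω'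
    positivity
  · rw [P.ex_add, P.ex_add, P.ex_add, P.ex_const_mul, P.ex_const_mul, P.ex_const_mul,
      P.ex_const_mul, hJ2, hK2]
    linarith
  -- the pointwise inequality
  intro ω hω
  set R := P.cond D (D ω) with hR
  set Q := P.cond Dt (Dt ω) with hQ
  have hRs : ∀ ω', 0 < R.w ω' → D ω' = D ω ∧ 0 < P.w ω' := fun ω' h' =>
    cond_supp P D (P.pr_pos D hω) h'
  have hQs : ∀ ω', 0 < Q.w ω' → D ω' = D ω ∧ Θ ω' = Θ ω ∧ 0 < P.w ω' := hDt ω hω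
  have hhc : hc Q (fun ω => fine (D ω) (Θ ω) (pi ω)) (fun ω => coarse (D ω) (Θ ω) (pi ω)) =
      hc Q (fun ω' => fine (D ω) (Θ ω) (pi ω')) (fun ω' => coarse (D ω) (Θ ω) (pi ω')) := by
    refine hc_congr_supp (fun ω' h' => ?_) fun ω' h' => ?_
    · rw [(hQs ω' h').1, (hQs ω' h').2.1]
    · rw [(hQs ω' h').1, (hQs ω' h').2.1]
  rw [hhc]
  set H := hc Q (fun ω' => fine (D ω) (Θ ω) (pi ω')) (fun ω' => coarse (D ω) (Θ ω) (pi ω'))
    with hH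
  -- the error of one translation
  let er : Ω → Ω → Ω → ℝ := fun ω₂ ω₄ ω₅ =>
    erC Q (P.cond Dt (Dt ω₂)) W E (fun a => e (D ω) (W a)) (e (D ω) (W ω₄)) (e (D ω) (W ω₅))
  have her0 : ∀ ω₂ ω₄ ω₅, 0 ≤ er ω₂ ω₄ ω₅ := fun _ _ _ => erC_nonneg _ _ _ _ _ _ _
  have htr : ∀ ω₂ ω₄ ω₅, 0 < R.w ω₂ →
      Tr Q pi (fun i => (e (D ω) (W ω₄) - e (D ω) (W ω₅)) * g (D ω) (Θ ω) (Θ ω₂) i)
        (fun i => 5 * c i) (er ω₂ ω₄ ω₅) := by
    intro ω₂ ω₄ ω₅ hω₂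
    obtain ⟨hD2, hP2⟩ := hRs ω₂ hω₂
    have hQ1s := hDt ω₂ hP2
    refine chain_tr Q (P.cond Dt (Dt ω₂)) W E (fun a => e (D ω) (W a)) _ _ pi (be (Θ ω))
      (g (D ω) (Θ ω) (Θ ω₂)) (h (D ω) (Θ ω) (Θ ω₂)) c ?_ ?_ ?_
    · intro a b ha hb hE
      obtain ⟨u1, u2, u3⟩ := hQs a ha
      obtain ⟨v1, v2, v3⟩ := hQs b hb
      exact geo.h1 a b u3 v3 (u1.trans v1.symm) (u2.trans v2.symm) hE
    · intro a b ha hb hE
      obtain ⟨u1, u2, u3⟩ := hQ1s a ha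
      obtain ⟨v1, v2, v3⟩ := hQ1s b hb
      exact geo.h1' ω a b hω u3 v3 ((u1.trans hD2).symm) (u1.trans v1.symm) (u2.trans v2.symm) hE
    · intro a b ha hb hW i
      obtain ⟨u1, u2, u3⟩ := hQs a ha
      obtain ⟨v1, v2, v3⟩ := hQ1s b hb
      have := geo.h2 a b u3 v3 (u1.trans (v1.trans hD2).symm) hW i
      rw [u1, u2, v2] at this
      exact this
  have hpt : ∀ ω₂ ω₃ ω₄ ω₅, 0 < R.w ω₂ → 0 < R.w ω₃ →
      χ (D ω) (Θ ω) (Θ ω₂) (Θ ω₃) (e (D ω) (W ω₄)) (e (D ω) (W ω₅)) * Φ -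
        N * (er ω₂ ω₄ ω₅ + er ω₃ ω₄ ω₅) ≤
      χ (D ω) (Θ ω) (Θ ω₂) (Θ ω₃) (e (D ω) (W ω₄)) (e (D ω) (W ω₅)) * H := by
    intro ω₂ ω₃ ω₄ ω₅ h2 h3
    set x := χ (D ω) (Θ ω) (Θ ω₂) (Θ ω₃) (e (D ω) (W ω₄)) (e (D ω) (W ω₅)) with hx
    have hx0 : 0 ≤ x := hχ0 _ _ _ _ _ _
    have hx1 : x ≤ 1 := hχ1 _ _ _ _ _ _
    have hE0 : 0 ≤ N * (er ω₂ ω₄ ω₅ + er ω₃ ω₄ ω₅) :=
      mul_nonneg hN (add_nonneg (her0 _ _ _) (her0 _ _ _))
    rcases hx0.eq_or_lt with h0 | h0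
    · rw [← h0]
      linarith
    · have h8 := hsat _ _ _ _ _ _ h0 Q pi _ _ (htr ω₂ ω₄ ω₅ h2) (htr ω₃ ω₄ ω₅ h3)
      have h9 := mul_le_mul_of_nonneg_left h8 hx0
      have h10 : x * (N * (er ω₂ ω₄ ω₅ + er ω₃ ω₄ ω₅)) ≤ N * (er ω₂ ω₄ ω₅ + er ω₃ ω₄ ω₅) :=
        mul_le_of_le_one_left hE0 hx1
      rw [mul_sub] at h9
      linarith
  -- average over the four copies
  let X4 : Ω → Ω → Ω → Ω → ℝ := fun ω₂ ω₃ ω₄ ω₅ =>
    χ (D ω) (Θ ω) (Θ ω₂) (Θ ω₃) (e (D ω) (W ω₄)) (e (D ω) (W ω₅))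
  let av : (Ω → Ω → Ω → Ω → ℝ) → ℝ := fun f =>
    R.ex (fun ω₂ => R.ex (fun ω₃ => R.ex (fun ω₄ => R.ex (fun ω₅ => f ω₂ ω₃ ω₄ ω₅))))
  have av_mono : ∀ f f' : Ω → Ω → Ω → Ω → ℝ, (∀ ω₂ ω₃ ω₄ ω₅, 0 < R.w ω₂ → 0 < R.w ω₃ →
      f ω₂ ω₃ ω₄ ω₅ ≤ f' ω₂ ω₃ ω₄ ω₅) → av f ≤ av f' := fun f f' hff =>
    R.ex_mono fun ω₂ h2 => R.ex_mono fun ω₃ h3 => R.ex_mono fun ω₄ _ => R.ex_mono fun ω₅ _ =>
      hff ω₂ ω₃ ω₄ ω₅ h2 h3
  have e1 : av (fun ω₂ ω₃ ω₄ ω₅ => X4 ω₂ ω₃ ω₄ ω₅ * Φ - N * (er ω₂ ω₄ ω₅ + er ω₃ ω₄ ω₅)) ≤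
      av (fun ω₂ ω₃ ω₄ ω₅ => X4 ω₂ ω₃ ω₄ ω₅ * H) := av_mono _ _ hpt
  have e2 : av (fun ω₂ ω₃ ω₄ ω₅ => X4 ω₂ ω₃ ω₄ ω₅ * H) = av X4 * H := by
    simp only [av]
    simp only [mul_comm _ H, R.ex_const_mul]
  have e3 : av (fun ω₂ ω₃ ω₄ ω₅ => X4 ω₂ ω₃ ω₄ ω₅ * Φ - N * (er ω₂ ω₄ ω₅ + er ω₃ ω₄ ω₅)) =
      av X4 * Φ - N * (R.ex (fun ω₂ => R.ex (fun ω₄ => R.ex (fun ω₅ => er ω₂ ω₄ ω₅))) +
        R.ex (fun ω₃ => R.ex (fun ω₄ => R.ex (fun ω₅ => er ω₃ ω₄ ω₅)))) := by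
    simp only [av]
    simp only [R.ex_sub, R.ex_const_mul, R.ex_add, R.ex_const]
    congr 1
    simp only [mul_comm _ Φ, R.ex_const_mul]
  have e4 : R.ex (fun ω₂ => R.ex (fun ω₄ => R.ex (fun ω₅ => er ω₂ ω₄ ω₅))) ≤
      J ω + R.ex J + 8 * K ω + 8 * R.ex K := by
    have : R.ex (fun ω₂ => R.ex (fun ω₄ => R.ex (fun ω₅ => er ω₂ ω₄ ω₅))) ≤
        R.ex (fun ω₂ => J ω + J ω₂ + 8 * K ω + 8 * K ω₂) := by
      refine R.ex_mono fun ω₂ h2 => ?_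
      obtain ⟨hD2, hP2⟩ := hRs ω₂ h2
      have h3 := chain5_err Q (P.cond Dt (Dt ω₂)) R W E (e (D ω))
      have h4 : J ω₂ = il (P.cond Dt (Dt ω₂)) (fun a => e (D ω) (W a)) E := by
        simp only [J]
        rw [hD2]
      have h5 : K ω₂ = dl (P.cond Dt (Dt ω₂)) W R W := by
        simp only [K]
        rw [hD2]
      rw [h4, h5]
      exact h3
    simp only [R.ex_add, R.ex_const_mul, R.ex_const] at this
    exact this
  rw [e3, e2] at e1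
  have e5 : N * (R.ex (fun ω₂ => R.ex (fun ω₄ => R.ex (fun ω₅ => er ω₂ ω₄ ω₅))) +
        R.ex (fun ω₃ => R.ex (fun ω₄ => R.ex (fun ω₅ => er ω₃ ω₄ ω₅)))) ≤
      N * (2 * J ω + 2 * R.ex J + 16 * K ω + 16 * R.ex K) :=
    mul_le_mul_of_nonneg_left (by linarith) hN
  have e6 : av X4 * Φ - N * (2 * J ω + 2 * R.ex J + 16 * K ω + 16 * R.ex K) ≤ av X4 * H := by
    linarith
  exact e6

/-- the average of the weight over the copies is between `0` and `1` -/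
theorem av_chi_mem (χ : U → V → V → V → ℝ → ℝ → ℝ) (hχ0 : ∀ d θ θ₂ θ₃ x x', 0 ≤ χ d θ θ₂ θ₃ x x')
    (hχ1 : ∀ d θ θ₂ θ₃ x x', χ d θ θ₂ θ₃ x x' ≤ 1) (R : Law Ω) (d : U) (θ : V) :
    0 ≤ R.ex (fun ω₂ => R.ex (fun ω₃ => R.ex (fun ω₄ => R.ex (fun ω₅ =>
      χ d θ (Θ ω₂) (Θ ω₃) (e d (W ω₄)) (e d (W ω₅)))))) ∧
    R.ex (fun ω₂ => R.ex (fun ω₃ => R.ex (fun ω₄ => R.ex (fun ω₅ =>
      χ d θ (Θ ω₂) (Θ ω₃) (e d (W ω₄)) (e d (W ω₅)))))) ≤ 1 := by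
  constructor
  · exact R.ex_nonneg fun ω₂ _ => R.ex_nonneg fun ω₃ _ => R.ex_nonneg fun ω₄ _ =>
      R.ex_nonneg fun ω₅ _ => hχ0 _ _ _ _ _ _
  · have : R.ex (fun ω₂ => R.ex (fun ω₃ => R.ex (fun ω₄ => R.ex (fun ω₅ =>
        χ d θ (Θ ω₂) (Θ ω₃) (e d (W ω₄)) (e d (W ω₅)))))) ≤
        R.ex (fun _ => R.ex (fun _ => R.ex (fun _ => R.ex (fun _ => 1)))) :=
      R.ex_mono fun ω₂ _ => R.ex_mono fun ω₃ _ => R.ex_mono fun ω₄ _ => R.ex_mono fun ω₅ _ =>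
        hχ1 _ _ _ _ _ _
    refine this.trans (le_of_eq ?_)
    simp only [R.ex_const]

/-- **THE M-STEP for exact positions** -/
theorem mstepC (geo : Geo P D Θ W E e pi be g h c)
    (χ : U → V → V → V → ℝ → ℝ → ℝ) (hχ0 : ∀ d θ θ₂ θ₃ x x', 0 ≤ χ d θ θ₂ θ₃ x x')
    (hχ1 : ∀ d θ θ₂ θ₃ x x', χ d θ θ₂ θ₃ x x' ≤ 1)
    (fine : U → V → (ι → ℝ) → F) (coarse : U → V → (ι → ℝ) → G) (Φ N : ℝ) (hN : 0 ≤ N)
    (hsat : ∀ d θ θ₂ θ₃ x x', 0 < χ d θ θ₂ θ₃ x x' → ∀ (Q : Law Ω) (X : Ω → ι → ℝ) (ε₁ ε₂ : ℝ),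
      Tr Q X (fun i => (x - x') * g d θ θ₂ i) (fun i => 5 * c i) ε₁ →
      Tr Q X (fun i => (x - x') * g d θ θ₃ i) (fun i => 5 * c i) ε₂ →
      Φ - N * (ε₁ + ε₂) ≤ hc Q (fun ω => fine d θ (X ω)) (fun ω => coarse d θ (X ω))) :
    P.ex (fun ω => (P.cond D (D ω)).ex (fun ω₂ => (P.cond D (D ω)).ex (fun ω₃ =>
      (P.cond D (D ω)).ex (fun ω₄ => (P.cond D (D ω)).ex (fun ω₅ =>
        χ (D ω) (Θ ω) (Θ ω₂) (Θ ω₃) (e (D ω) (W ω₄)) (e (D ω) (W ω₅))))))) * Φ -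
      N * (16 * Real.sqrt (mi P (fun ω => e (D ω) (W ω)) E (fun ω => (D ω, Θ ω))) +
        128 * Real.sqrt (mi P Θ W D)) ≤
    hc P (fun ω => fine (D ω) (Θ ω) (pi ω))
      (fun ω => (coarse (D ω) (Θ ω) (pi ω), (D ω, Θ ω))) := by
  obtain ⟨er, _, her, hpt⟩ := mstepC_pt P D Θ W E e pi be g h c geo χ hχ0 hχ1 fine coarse Φ N hN
    hsat
  rw [hc_cond_ex P _ _ (fun ω => (D ω, Θ ω))]
  have h1 := P.ex_mono (f := fun ω => (P.cond D (D ω)).ex (fun ω₂ => (P.cond D (D ω)).ex (fun ω₃ =>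
      (P.cond D (D ω)).ex (fun ω₄ => (P.cond D (D ω)).ex (fun ω₅ =>
        χ (D ω) (Θ ω) (Θ ω₂) (Θ ω₃) (e (D ω) (W ω₄)) (e (D ω) (W ω₅)))))) * Φ - N * er ω)
    (g := fun ω => hc (P.cond (fun ω => (D ω, Θ ω)) (D ω, Θ ω))
      (fun ω => fine (D ω) (Θ ω) (pi ω)) (fun ω => coarse (D ω) (Θ ω) (pi ω))) (by
    intro ω hω
    refine (hpt ω hω).trans ?_
    exact mul_le_of_le_one_left (hc_nonneg _ _ _)
      (av_chi_mem Θ W e χ hχ0 hχ1 (P.cond D (D ω)) (D ω) (Θ ω)).2)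
  refine le_trans ?_ h1
  rw [P.ex_sub, P.ex_const_mul]
  have h2 := mul_le_mul_of_nonneg_left her hN
  have e8 : P.ex (fun ω => (P.cond D (D ω)).ex (fun ω₂ => (P.cond D (D ω)).ex (fun ω₃ =>
      (P.cond D (D ω)).ex (fun ω₄ => (P.cond D (D ω)).ex (fun ω₅ =>
        χ (D ω) (Θ ω) (Θ ω₂) (Θ ω₃) (e (D ω) (W ω₄)) (e (D ω) (W ω₅)))))) * Φ) =
      P.ex (fun ω => (P.cond D (D ω)).ex (fun ω₂ => (P.cond D (D ω)).ex (fun ω₃ =>
      (P.cond D (D ω)).ex (fun ω₄ => (P.cond D (D ω)).ex (fun ω₅ =>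
        χ (D ω) (Θ ω) (Θ ω₂) (Θ ω₃) (e (D ω) (W ω₄)) (e (D ω) (W ω₅))))))) * Φ := by
    simp only [mul_comm _ Φ, P.ex_const_mul]
  rw [e8]
  linarith

end main

end Vale.Agent.P127.TV
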